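import Crest.Agent.R089.Fock

set_option autoImplicit false
set_option linter.deprecated false

namespace Crest.Agent.R089

open Crest.OpAlg
open scoped ComplexConjugate TensorProduct

section words
variable {B : Type*} [Ring B] [Algebra ℂ B] {n : ℕ}

/-- word evaluation on lists -/
abbrev wd (Z : Fin n → B) (w : List (Fin n)) : B := wordEval Z (FreeMonoid.ofList w)

omit [Algebra ℂ B] in
@[simp] lemma wd_nil (Z : Fin n → B) : wd Z [] = 1 := by simp [wd, wordEval]

omit [Algebra ℂ B] in
@[simp] lemma wd_cons (Z : Fin n → B) (x : Fin n) (t : List (Fin n)) :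
    wd Z (x :: t) = Z x * wd Z t := by simp [wd, wordEval]

omit [Algebra ℂ B] in
lemma wd_append (Z : Fin n → B) (u t : List (Fin n)) :
    wd Z (u ++ t) = wd Z u * wd Z t := by simp [wd, wordEval]

lemma polyEval_eq (Z : Fin n → B) (P : NCPoly n) :
    polyEval Z P = P.coeff.sum fun w c => c • wd Z (FreeMonoid.toList w) := by
  unfold polyEval
  rw [MonoidAlgebra.lift_apply]
  rfl

/-- free difference quotient of a word -/
noncomputable def dW (Z : Fin n → B) (j : Fin n) (w : List (Fin n)) : B ⊗[ℂ] B :=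
  ∑ k ∈ Finset.range w.length,
    if w[k]? = some j then wd Z (w.take k) ⊗ₜ[ℂ] wd Z (w.drop (k + 1)) else 0

lemma dW_nil (Z : Fin n → B) (j : Fin n) : dW Z j [] = 0 := by simp [dW]

lemma dW_cons (Z : Fin n → B) (j x : Fin n) (t : List (Fin n)) :
    dW Z j (x :: t) = (if x = j then (1 : B) ⊗ₜ[ℂ] wd Z t else 0) +
      (Z x ⊗ₜ[ℂ] (1 : B)) * dW Z j t := by
  unfold dW
  rw [List.length_cons, Finset.sum_range_succ', add_comm, Finset.mul_sum]
  congr 1
  · simp
  · refine Finset.sum_congr rfl fun k _ => ?_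
    simp only [List.getElem?_cons_succ, List.take_succ_cons, List.drop_succ_cons, wd_cons]
    split_ifs
    · rw [Algebra.TensorProduct.tmul_mul_tmul, one_mul]
    · simp

/-- free difference quotient of a polynomial -/
noncomputable def dP (Z : Fin n → B) (j : Fin n) (P : NCPoly n) : B ⊗[ℂ] B :=
  P.coeff.sum fun w c => c • dW Z j (FreeMonoid.toList w)

/-- `x ⊗ y ↦ (x ⊗ 1) T (1 ⊗ y)` -/
noncomputable def sharp (T : B ⊗[ℂ] B) : B ⊗[ℂ] B →ₗ[ℂ] B ⊗[ℂ] B :=
  TensorProduct.lift (LinearMap.mk₂ ℂ (fun x y => (x ⊗ₜ[ℂ] (1 : B)) * T * ((1 : B) ⊗ₜ[ℂ] y))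
    (by intro a b c; rw [TensorProduct.add_tmul, add_mul, add_mul])
    (by intro a b c; rw [← TensorProduct.smul_tmul', smul_mul_assoc, smul_mul_assoc])
    (by intro a b c; rw [TensorProduct.tmul_add, mul_add])
    (by intro a b c; rw [TensorProduct.tmul_smul, mul_smul_comm]))

lemma sharp_tmul (T : B ⊗[ℂ] B) (x y : B) :
    sharp T (x ⊗ₜ[ℂ] y) = (x ⊗ₜ[ℂ] (1 : B)) * T * ((1 : B) ⊗ₜ[ℂ] y) := by simp [sharp]

lemma sharp_left (T U : B ⊗[ℂ] B) (a : B) :
    sharp T ((a ⊗ₜ[ℂ] (1 : B)) * U) = (a ⊗ₜ[ℂ] (1 : B)) * sharp T U := by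
  induction U using TensorProduct.induction_on with
  | zero => simp
  | tmul x y =>
    rw [Algebra.TensorProduct.tmul_mul_tmul, sharp_tmul, sharp_tmul, ← mul_assoc, ← mul_assoc,
      Algebra.TensorProduct.tmul_mul_tmul, one_mul, one_mul]
  | add x y hx hy => rw [mul_add, map_add, map_add, hx, hy, mul_add]

lemma sharp_add (T T' U : B ⊗[ℂ] B) : sharp (T + T') U = sharp T U + sharp T' U := by
  induction U using TensorProduct.induction_on with
  | zero => simp
  | tmul x y => simp only [sharp_tmul, mul_add, add_mul]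
  | add x y hx hy => simp only [map_add, hx, hy]; abel

lemma sharp_zero (U : B ⊗[ℂ] B) : sharp 0 U = 0 := by
  induction U using TensorProduct.induction_on with
  | zero => simp
  | tmul x y => simp only [sharp_tmul, mul_zero, zero_mul]
  | add x y hx hy => simp only [map_add, hx, hy, add_zero]

lemma sharp_smul (c : ℂ) (T U : B ⊗[ℂ] B) : sharp (c • T) U = c • sharp T U := by
  induction U using TensorProduct.induction_on with
  | zero => simp
  | tmul x y => simp only [sharp_tmul, mul_smul_comm, smul_mul_assoc]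
  | add x y hx hy => simp only [map_add, hx, hy, smul_add]

lemma sharp_one (U : B ⊗[ℂ] B) : sharp ((1 : B) ⊗ₜ[ℂ] (1 : B)) U = U := by
  induction U using TensorProduct.induction_on with
  | zero => simp
  | tmul x y => simp only [sharp_tmul, Algebra.TensorProduct.tmul_mul_tmul, mul_one, one_mul]
  | add x y hx hy => simp only [map_add, hx, hy]

end words

lemma star_wd {B : Type*} [Ring B] [StarRing B] {n : ℕ} (Z : Fin n → B)
    (hZ : ∀ i, IsSelfAdjoint (Z i)) (w : List (Fin n)) : star (wd Z w) = wd Z w.reverse := by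
  induction w with
  | nil => simp
  | cons x t ih => rw [wd_cons, star_mul, ih, List.reverse_cons, wd_append, (hZ x).star_eq]; simp

lemma star_polyEval {B : Type*} [Ring B] [StarRing B] [Algebra ℂ B] [StarModule ℂ B] {n : ℕ}
    (Z : Fin n → B) (hZ : ∀ i, IsSelfAdjoint (Z i)) (P : NCPoly n) :
    star (polyEval Z P) = polyEval Z (polyStar P) := by
  conv_lhs => rw [polyEval_eq]
  unfold polyStar polyEval
  rw [Finsupp.sum, Finsupp.sum, star_sum, map_sum]
  refine Finset.sum_congr rfl fun w _ => ?_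
  rw [MonoidAlgebra.lift_single, star_smul, star_wd Z hZ]
  rfl

namespace FockModel

variable {L : Type} [DecidableEq L] {A : Type} [CStarAlgebra A] (F : FockModel L A)

/-- the functional `x ⊗ y ↦ cf α x * cf β y` -/
noncomputable def phi (α β : List L) : A ⊗[ℂ] A →ₗ[ℂ] ℂ :=
  TensorProduct.lift (LinearMap.mk₂ ℂ (fun x y => F.cf α x * F.cf β y)
    (by intro a b c; rw [map_add, add_mul])
    (by intro a b c; rw [map_smul, smul_mul_assoc])
    (by intro a b c; rw [map_add, mul_add])
    (by intro a b c; rw [map_smul, mul_smul_comm]))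

@[simp] lemma phi_tmul (α β : List L) (x y : A) :
    F.phi α β (x ⊗ₜ[ℂ] y) = F.cf α x * F.cf β y := by simp [phi]

lemma phi_left_nil (l : L) (β : List L) (U : A ⊗[ℂ] A) :
    F.phi [] β ((F.s l ⊗ₜ[ℂ] (1 : A)) * U) = F.phi [l] β U := by
  induction U using TensorProduct.induction_on with
  | zero => simp
  | tmul x y => simp [F.left_nil]
  | add x y hx hy => simp only [mul_add, map_add, hx, hy]

lemma phi_left_cons (l x : L) (t β : List L) (U : A ⊗[ℂ] A) :
    F.phi (x :: t) β ((F.s l ⊗ₜ[ℂ] (1 : A)) * U) =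
      F.phi (l :: x :: t) β U + if x = l then F.phi t β U else 0 := by
  induction U using TensorProduct.induction_on with
  | zero => simp
  | tmul a y => simp only [Algebra.TensorProduct.tmul_mul_tmul, one_mul, phi_tmul, F.left_cons]
                split_ifs <;> ring
  | add a y hx hy => simp only [mul_add, map_add, hx, hy]; split_ifs <;> ring

/-- `T` is the free difference quotient of `x` with respect to the letter `h`. -/
def Der (h : L) (x : A) (T : A ⊗[ℂ] A) : Prop :=
  ∀ (y : A) (U : A ⊗[ℂ] A), (∀ α β, F.cf (α ++ h :: β) y = F.phi α β U) →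
    ∀ α β, F.cf (α ++ h :: β) (x * y) =
      F.phi α β ((x ⊗ₜ[ℂ] (1 : A)) * U + T * ((1 : A) ⊗ₜ[ℂ] y))

variable {F}

lemma Der.one (h : L) : F.Der h 1 0 := by
  intro y U hU α β
  rw [one_mul, zero_mul, add_zero, ← Algebra.TensorProduct.one_def, one_mul, hU]

lemma Der.zero (h : L) : F.Der h 0 0 := by
  intro y U hU α β
  simp

lemma Der.add {h : L} {x x' : A} {T T' : A ⊗[ℂ] A} (h1 : F.Der h x T) (h2 : F.Der h x' T') :
    F.Der h (x + x') (T + T') := by
  intro y U hU α β
  rw [add_mul, map_add, h1 y U hU, h2 y U hU, ← map_add, TensorProduct.add_tmul, add_mul, add_mul]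
  congr 1; abel

lemma Der.smul {h : L} {x : A} {T : A ⊗[ℂ] A} (c : ℂ) (h1 : F.Der h x T) :
    F.Der h (c • x) (c • T) := by
  intro y U hU α β
  rw [smul_mul_assoc, map_smul, h1 y U hU, ← map_smul, smul_add, ← TensorProduct.smul_tmul',
    smul_mul_assoc, smul_mul_assoc]

lemma Der.mul {h : L} {x x' : A} {T T' : A ⊗[ℂ] A} (h1 : F.Der h x T) (h2 : F.Der h x' T') :
    F.Der h (x * x') ((x ⊗ₜ[ℂ] (1 : A)) * T' + T * ((1 : A) ⊗ₜ[ℂ] x')) := by
  intro y U hU α β
  rw [mul_assoc, h1 _ _ (h2 y U hU)]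
  congr 1
  simp only [mul_add, add_mul, ← mul_assoc, Algebra.TensorProduct.tmul_mul_tmul, mul_one]
  rw [mul_assoc T, Algebra.TensorProduct.tmul_mul_tmul, mul_one]
  abel

lemma Der.letter (h l : L) :
    F.Der h (F.s l) (if l = h then (1 : A) ⊗ₜ[ℂ] (1 : A) else 0) := by
  intro y U hU α β
  rw [map_add]
  rcases α with _ | ⟨x, t⟩
  · rw [List.nil_append, F.left_cons, phi_left_nil, ← hU [l] β]
    congr 1
    by_cases hl : l = h
    · subst hl; simp [F.cf_one]
    · rw [if_neg hl, if_neg (Ne.symm hl)]; simp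
  · rw [List.cons_append, F.left_cons, phi_left_cons, ← hU (l :: x :: t) β, ← hU t β]
    have : F.phi (x :: t) β ((if l = h then (1 : A) ⊗ₜ[ℂ] (1 : A) else 0) * (1 : A) ⊗ₜ[ℂ] y) = 0 := by
      split_ifs
      · simp [F.cf_one]
      · simp
    rw [this, add_zero]
    rfl

lemma Der.cf {h : L} {x : A} {T : A ⊗[ℂ] A} (h1 : F.Der h x T) (α β : List L) :
    F.cf (α ++ h :: β) x = F.phi α β T := by
  have := h1 1 0 (by intro α β; simp [F.cf_one]) α β
  rw [mul_one, mul_zero, zero_add, ← Algebra.TensorProduct.one_def, mul_one] at this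
  exact this

lemma Der.word {n : ℕ} {h : L} {Z : Fin n → A} {T : Fin n → A ⊗[ℂ] A}
    (hT : ∀ j, F.Der h (Z j) (T j)) (w : List (Fin n)) :
    F.Der h (wd Z w) (∑ j, sharp (T j) (dW Z j w)) := by
  induction w with
  | nil => simpa [dW_nil] using Der.one h
  | cons x t ih =>
    rw [wd_cons]
    convert (hT x).mul ih using 1
    simp only [dW_cons, map_add, sharp_left, Finset.sum_add_distrib, Finset.mul_sum]
    rw [add_comm]
    congr 1
    rw [Finset.sum_eq_single x]
    · rw [if_pos rfl, sharp_tmul, ← Algebra.TensorProduct.one_def, one_mul]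
    · intro j _ hj; rw [if_neg (Ne.symm hj), map_zero]
    · simp

lemma cf_polyEval {n : ℕ} {h : L} {Z : Fin n → A} {T : Fin n → A ⊗[ℂ] A}
    (hT : ∀ j, F.Der h (Z j) (T j)) (P : NCPoly n) (α β : List L) :
    F.cf (α ++ h :: β) (polyEval Z P) = ∑ j, F.phi α β (sharp (T j) (dP Z j P)) := by
  rw [polyEval_eq]
  unfold dP
  simp only [Finsupp.sum, map_sum, map_smul]
  rw [Finset.sum_comm]
  refine Finset.sum_congr rfl fun w _ => ?_
  rw [(Der.word hT _).cf, map_sum, Finset.smul_sum]

variable (F)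

lemma splitPairing_eq {n : ℕ} (Z : Fin n → A) (i : Fin n) (P : NCPoly n) :
    splitPairing (F.cf []) Z i P = F.phi [] [] (dP Z i P) := by
  unfold splitPairing dP dW
  simp only [Finsupp.sum, map_sum, map_smul, smul_eq_mul]
  refine Finset.sum_congr rfl fun w _ => ?_
  congr 1
  refine Finset.sum_congr rfl fun k _ => ?_
  split_ifs
  · rw [phi_tmul]; rfl
  · simp

/-- Schwinger-Dyson recursion for words in letters. -/
lemma sd_rec {n : ℕ} (f : Fin n → L) (hf : Function.Injective f) (l : Fin n) (w : List (Fin n)) :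
    F.cf [] (wd (fun i => F.s (f i)) (l :: w)) = ∑ k ∈ Finset.range w.length,
      if w[k]? = some l then F.cf [] (wd (fun i => F.s (f i)) (w.take k)) *
        F.cf [] (wd (fun i => F.s (f i)) (w.drop (k + 1))) else 0 := by
  rw [wd_cons, F.left_nil]
  have h1 := (Der.word (F := F) (h := f l) (Z := fun i => F.s (f i))
    (fun j => Der.letter (f l) (f j)) w).cf [] []
  rw [List.nil_append] at h1
  rw [h1, Finset.sum_eq_single l]
  · rw [if_pos rfl, sharp_one, dW, map_sum]
    refine Finset.sum_congr rfl fun k _ => ?_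
    split_ifs <;> simp
  · intro j _ hj
    rw [if_neg (fun h => hj (hf h)), sharp_zero]
  · simp

lemma pow_rec (l : L) (k : ℕ) : F.cf [] (F.s l ^ (k + 1)) =
    ∑ j ∈ Finset.range k, F.cf [] (F.s l ^ j) * F.cf [] (F.s l ^ (k - (j + 1))) := by
  have hw : ∀ k : ℕ, wd (fun _ : Fin 1 => F.s l) (List.replicate k 0) = F.s l ^ k := by
    intro k
    induction k with
    | zero => simp
    | succ k ih => rw [List.replicate_succ, wd_cons, ih, pow_succ']
  have := F.sd_rec (fun _ : Fin 1 => l) (fun a b _ => Subsingleton.elim a b) 0 (List.replicate k 0)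
  rw [← List.replicate_succ, hw] at this
  rw [this, List.length_replicate]
  refine Finset.sum_congr rfl fun j hj => ?_
  have hj := Finset.mem_range.mp hj
  rw [if_pos (by simp [hj]), List.take_replicate, List.drop_replicate, hw, hw, min_eq_left hj.le]

lemma catalan_moments (l : L) (k : ℕ) :
    F.cf [] (F.s l ^ (2 * k)) = (catalan k : ℂ) ∧ F.cf [] (F.s l ^ (2 * k + 1)) = 0 := by
  induction k using Nat.strong_induction_on with
  | _ k ih =>
    have hodd : ∀ k' ≤ k, (∀ j < k', F.cf [] (F.s l ^ (2 * j + 1)) = 0) →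
        F.cf [] (F.s l ^ (2 * k' + 1)) = 0 := by
      intro k' _ h
      rw [pow_rec]
      refine Finset.sum_eq_zero fun j hj => ?_
      have hj := Finset.mem_range.mp hj
      rcases Nat.even_or_odd' j with ⟨i, rfl | rfl⟩
      · have : 2 * k' - (2 * i + 1) = 2 * (k' - i - 1) + 1 := by omega
        rw [this, h _ (by omega), mul_zero]
      · rw [h i (by omega), zero_mul]
    refine ⟨?_, hodd k le_rfl fun j hj => (ih j hj).2⟩
    rcases k with _ | k
    · simp [F.cf_one]
    · rw [show 2 * (k + 1) = (2 * k + 1) + 1 by ring, pow_rec, catalan_succ,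
        Fin.sum_univ_eq_sum_range (fun i => catalan i * catalan (k - i)) (k + 1)]
      push_cast
      have key : ∀ (g : ℕ → ℂ) (m : ℕ), (∀ i < m, g (2 * i + 1) = 0) →
          ∑ j ∈ Finset.range (2 * m + 1), g j = ∑ i ∈ Finset.range (m + 1), g (2 * i) := by
        intro g m hg
        induction m with
        | zero => simp
        | succ m ihm =>
          rw [show 2 * (m + 1) + 1 = (2 * m + 1) + 1 + 1 by ring, Finset.sum_range_succ,
            Finset.sum_range_succ, ihm (fun i hi => hg i (by omega)), hg m (by omega),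
            Finset.sum_range_succ _ (m + 1), add_zero, show 2 * m + 1 + 1 = 2 * (m + 1) by ring]
      rw [key _ k (fun i hi => by rw [(ih i (by omega)).2, zero_mul])]
      refine Finset.sum_congr rfl fun i hi => ?_
      have hi := Finset.mem_range.mp hi
      rw [(ih i hi).1, show 2 * k - 2 * i = 2 * (k - i) by omega, (ih _ (by omega)).1]

end FockModel

end Crest.Agent.R089
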