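import Crest.Agent.R089.Vol

set_option autoImplicit false
set_option linter.deprecated false

namespace Crest.Agent.R089

open Crest.OpAlg MeasureTheory ProbabilityTheory Filter Topology
open scoped NNReal ENNReal

lemma nrm_net (E : Type) [NormedAddCommGroup E] [NormedSpace ℝ E] [FiniteDimensional ℝ E] :
    ∃ s : Finset E, (∀ c ∈ s, ‖c‖ ≤ 2) ∧ s.card ≤ 5 ^ Module.finrank ℝ E ∧
      ∀ x, ‖x‖ ≤ 2 → ∃ c ∈ s, ‖x - c‖ ≤ 1 := by
  classical
  let P : ℕ → Prop := fun k => ∃ s : Finset E, (∀ c ∈ s, ‖c‖ ≤ 2) ∧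
    (∀ c ∈ s, ∀ d ∈ s, c ≠ d → 1 ≤ ‖c - d‖) ∧ s.card = k
  have hP0 : P 0 := ⟨∅, by simp, by simp, rfl⟩
  obtain ⟨s, hs, hsep, hcard⟩ : P (Nat.findGreatest P (5 ^ Module.finrank ℝ E)) :=
    Nat.findGreatest_spec (Nat.zero_le _) hP0
  refine ⟨s, hs, Besicovitch.card_le_of_separated s hs hsep, fun x hx => ?_⟩
  by_contra hcon
  push Not at hcon
  have hxs : x ∉ s := fun h => by have := hcon x h; simp at this; linarith
  have hs' : ∀ c ∈ insert x s, ‖c‖ ≤ 2 := by
    intro c hc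
    rcases Finset.mem_insert.mp hc with rfl | hc
    · exact hx
    · exact hs c hc
  have hsep' : ∀ c ∈ insert x s, ∀ d ∈ insert x s, c ≠ d → 1 ≤ ‖c - d‖ := by
    intro c hc d hd hcd
    rcases Finset.mem_insert.mp hc with rfl | hc' <;> rcases Finset.mem_insert.mp hd with rfl | hd'
    · exact absurd rfl hcd
    · exact (hcon d hd').le
    · rw [norm_sub_rev]; exact (hcon c hc').le
    · exact hsep c hc' d hd' hcd
  have h1 := Nat.le_findGreatest (P := P) (Besicovitch.card_le_of_separated _ hs' hsep')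
    ⟨_, hs', hsep', rfl⟩
  rw [Finset.card_insert_of_notMem hxs] at h1
  omega

lemma nrm_le_of_net {E : Type} [NormedAddCommGroup E] [InnerProductSpace ℂ E] (s : Finset E)
    (hs : ∀ x, ‖x‖ ≤ 2 → ∃ c ∈ s, ‖x - c‖ ≤ 1) (T : E →L[ℂ] E) (K : ℝ)
    (hK : ∀ u ∈ s, ∀ w ∈ s, (inner ℂ w (T u)).re ≤ K) : ‖T‖ ≤ K := by
  have h1 : ∀ u ∈ s, ‖T u‖ ≤ K := by
    intro u hu
    by_cases hy : T u = 0
    · have := hK u hu u hu
      simpa [hy] using this
    · have hpos : 0 < ‖T u‖ := norm_pos_iff.mpr hy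
      obtain ⟨c, hc, hxc⟩ := hs (((2 / ‖T u‖ : ℝ) : ℂ) • T u) (by
        rw [norm_smul, Complex.norm_real, Real.norm_of_nonneg (by positivity)]
        field_simp
        rfl)
      have h2 : (inner ℂ (((2 / ‖T u‖ : ℝ) : ℂ) • T u) (T u)).re = 2 * ‖T u‖ := by
        rw [inner_smul_left, inner_self_eq_norm_sq_to_K, Complex.conj_ofReal]
        norm_cast
        simp only [Complex.coe_algebraMap, ← Complex.ofReal_pow, ← Complex.ofReal_mul,
          Complex.ofReal_re]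
        field_simp
      have h3 : (inner ℂ (((2 / ‖T u‖ : ℝ) : ℂ) • T u - c) (T u)).re ≤ ‖T u‖ := by
        refine (Complex.re_le_norm _).trans ((norm_inner_le_norm _ _).trans ?_)
        nlinarith
      rw [inner_sub_left, Complex.sub_re, h2] at h3
      have := hK u hu c hc
      linarith
  obtain ⟨c0, hc0, -⟩ := hs 0 (by simp)
  have hK0 : 0 ≤ K := (norm_nonneg _).trans (h1 c0 hc0)
  have h2 : ‖T‖ ≤ (K + ‖T‖) / 2 := by
    refine ContinuousLinearMap.opNorm_le_of_unit_norm (by positivity) fun x hx => ?_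
    obtain ⟨c, hc, hxc⟩ := hs ((2 : ℂ) • x) (by rw [norm_smul, hx]; simp)
    have h3 : ‖T ((2 : ℂ) • x)‖ ≤ ‖T c‖ + ‖T ((2 : ℂ) • x - c)‖ := by
      rw [map_sub]
      have := norm_add_le (T c) (T ((2 : ℂ) • x) - T c)
      simpa using this
    have h4 := T.le_opNorm ((2 : ℂ) • x - c)
    rw [map_smul, norm_smul] at h3
    have h5 := h1 c hc
    have h6 : ‖(2 : ℂ)‖ = 2 := by simp
    rw [h6] at h3
    have := norm_nonneg T
    nlinarith
  linarith

lemma nrm_chernoff {κ : Type} [Fintype κ] (v : ℝ≥0) (f : (κ → ℝ) →ₗ[ℝ] ℝ) (B R t : ℝ)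
    (hB : 0 ≤ B) (ht : 0 ≤ t) (hf : ∀ a, f a ^ 2 ≤ B * ∑ k, a k ^ 2) :
    (Measure.pi fun _ : κ => gaussianReal 0 v).real {a | R ≤ f a} ≤
      Real.exp (-t * R + v * t ^ 2 * B / 2) := by
  classical
  let L : κ → ℝ := fun k => f (fun j => if k = j then 1 else 0)
  have hL : ∀ a, f a = ∑ k, a k * L k := fun a => by
    rw [LinearMap.pi_apply_eq_sum_univ]; rfl
  have hLB : ∑ k, L k ^ 2 ≤ B := by
    have h1 := hf L
    have h2 : f L = ∑ k, L k ^ 2 := by rw [hL]; simp [sq]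
    rw [h2] at h1
    have h3 : 0 ≤ ∑ k, L k ^ 2 := by positivity
    by_contra hcon
    push Not at hcon
    nlinarith
  have hexp : (fun a : κ → ℝ => Real.exp (t * f a)) =
      fun a => ∏ k, Real.exp ((t * L k) * a k) := by
    ext a
    rw [← Real.exp_sum, hL, Finset.mul_sum]
    congr 1
    exact Finset.sum_congr rfl fun k _ => by ring
  have hint : Integrable (fun a : κ → ℝ => Real.exp (t * f a))
      (Measure.pi fun _ : κ => gaussianReal 0 v) := by
    rw [hexp]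
    exact Integrable.fintype_prod (f := fun k x => Real.exp ((t * L k) * x))
      (fun k => integrable_exp_mul_gaussianReal _)
  refine (measure_ge_le_exp_mul_mgf (X := fun a => f a) R ht hint).trans ?_
  rw [Real.exp_add]
  gcongr
  rw [mgf, hexp, integral_fintype_prod_eq_prod (fun k x => Real.exp ((t * L k) * x))]
  have : ∀ k, ∫ x, Real.exp ((t * L k) * x) ∂(gaussianReal 0 v) =
      Real.exp (v * (t * L k) ^ 2 / 2) := by
    intro k
    have := congrFun (mgf_fun_id_gaussianReal (μ := 0) (v := v)) (t * L k)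
    simpa [mgf] using this
  simp_rw [this]
  rw [← Real.exp_sum]
  refine Real.exp_le_exp.mpr ?_
  have : ∑ k, (v : ℝ) * (t * L k) ^ 2 / 2 = v * t ^ 2 * (∑ k, L k ^ 2) / 2 := by
    rw [Finset.mul_sum, Finset.sum_div]
    exact Finset.sum_congr rfl fun k _ => by ring
  rw [this]
  gcongr

/-- the real-linear functional `a ↦ Re ⟨w, X_l(a) u⟩` -/
noncomputable def nrm_fun (n d : ℕ) (l : Fin n) (u w : EuclideanSpace ℂ (Fin d)) :
    (Fin n × (Fin d × Fin d) → ℝ) →ₗ[ℝ] ℝ where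
  toFun a := (inner ℂ w (Matrix.toEuclideanCLM (n := Fin d) (𝕜 := ℂ)
    (matrixTuple (WithLp.toLp 2 a) l) u)).re
  map_add' a b := by
    have : matrixTuple (WithLp.toLp 2 (a + b) : Coord n d) l =
        matrixTuple (WithLp.toLp 2 a) l + matrixTuple (WithLp.toLp 2 b) l := by
      ext i j
      simp only [matrixTuple, hermitianOfCoords, Matrix.add_apply, Pi.add_apply]
      split_ifs <;> push_cast <;> ring
    rw [this, map_add, ContinuousLinearMap.add_apply, inner_add_right, Complex.add_re]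
  map_smul' r a := by
    have : matrixTuple (WithLp.toLp 2 (r • a) : Coord n d) l =
        (r : ℂ) • matrixTuple (WithLp.toLp 2 a) l := by
      ext i j
      simp only [matrixTuple, hermitianOfCoords, Matrix.smul_apply, Pi.smul_apply, smul_eq_mul]
      split_ifs <;> push_cast <;> ring
    rw [this, map_smul, ContinuousLinearMap.smul_apply, inner_smul_right]
    simp

lemma nrm_hs {d : ℕ} (c : EuclideanSpace ℝ (Fin d × Fin d)) :
    ∑ p : Fin d × Fin d, ‖hermitianOfCoords c p.1 p.2‖ ^ 2 = ∑ p, c p ^ 2 := by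
  have h := vol_trace_sq c
  simp only [Matrix.trace, Matrix.diag, Matrix.mul_apply] at h
  apply Complex.ofReal_injective
  rw [← h, Fintype.sum_prod_type]
  push_cast
  refine Finset.sum_congr rfl fun i _ => Finset.sum_congr rfl fun j _ => ?_
  rw [← (vol_herm_isHermitian c).apply j i]
  exact (Complex.mul_conj' _).symm

lemma nrm_fun_sq (n d : ℕ) (l : Fin n) (u w : EuclideanSpace ℂ (Fin d)) (hu : ‖u‖ ≤ 2)
    (hw : ‖w‖ ≤ 2) (a : Fin n × (Fin d × Fin d) → ℝ) :
    nrm_fun n d l u w a ^ 2 ≤ 16 * ∑ k, a k ^ 2 := by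
  set M := matrixTuple (WithLp.toLp 2 a : Coord n d) l with hM
  have h1 : |nrm_fun n d l u w a| ≤ ∑ p : Fin d × Fin d, ‖M p.1 p.2‖ * (‖w p.1‖ * ‖u p.2‖) := by
    refine (Complex.abs_re_le_norm _).trans ?_
    rw [Fintype.sum_prod_type, PiLp.inner_apply]
    refine (norm_sum_le _ _).trans (Finset.sum_le_sum fun i _ => ?_)
    rw [Matrix.ofLp_toEuclideanCLM]
    simp only [RCLike.inner_apply, Matrix.mulVec, dotProduct, Finset.sum_mul]
    refine (norm_sum_le _ _).trans (Finset.sum_le_sum fun j _ => le_of_eq ?_)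
    simp only [norm_mul, Complex.norm_conj, ← hM]
    ring
  have h2 := Finset.sum_mul_sq_le_sq_mul_sq Finset.univ (fun p : Fin d × Fin d => ‖M p.1 p.2‖)
    (fun p => ‖w p.1‖ * ‖u p.2‖)
  have h3 : ∑ p : Fin d × Fin d, (‖w p.1‖ * ‖u p.2‖) ^ 2 = ‖w‖ ^ 2 * ‖u‖ ^ 2 := by
    rw [EuclideanSpace.norm_sq_eq, EuclideanSpace.norm_sq_eq, Finset.sum_mul_sum,
      Fintype.sum_prod_type]
    simp only [mul_pow]
  have h4 : ∑ p : Fin d × Fin d, ‖M p.1 p.2‖ ^ 2 ≤ ∑ k, a k ^ 2 := by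
    rw [hM, matrixTuple, nrm_hs, Fintype.sum_prod_type (f := fun k => a k ^ 2)]
    exact Finset.single_le_sum (f := fun l' => ∑ p, a (l', p) ^ 2)
      (fun _ _ => by positivity) (Finset.mem_univ l)
  have h5 : ‖w‖ ^ 2 * ‖u‖ ^ 2 ≤ 16 := by
    calc ‖w‖ ^ 2 * ‖u‖ ^ 2 ≤ 2 ^ 2 * 2 ^ 2 := by gcongr
      _ = 16 := by norm_num
  calc nrm_fun n d l u w a ^ 2 = |nrm_fun n d l u w a| ^ 2 := (sq_abs _).symm
    _ ≤ (∑ p : Fin d × Fin d, ‖M p.1 p.2‖ * (‖w p.1‖ * ‖u p.2‖)) ^ 2 := by gcongr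
    _ ≤ _ := h2
    _ ≤ (∑ k, a k ^ 2) * 16 := by rw [h3]; gcongr
    _ = _ := mul_comm _ _

lemma nrm_bound (n d : ℕ) (hd : 0 < d) : (gue n d).real
    {a | ∃ l, 9 + Real.log 625 < ‖Matrix.toEuclideanCLM (n := Fin d) (𝕜 := ℂ) (matrixTuple a l)‖} ≤
      n * Real.exp (-d) := by
  classical
  have hd' : (0 : ℝ) < d := by exact_mod_cast hd
  obtain ⟨s, hs, hcard, hnet⟩ := nrm_net (EuclideanSpace ℂ (Fin d))
  have hfin : Module.finrank ℝ (EuclideanSpace ℂ (Fin d)) = 2 * d := by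
    rw [finrank_real_of_complex]; simp
  rw [hfin] at hcard
  set R := 9 + Real.log 625 with hR
  set μ := (Measure.pi fun _ : Fin n × (Fin d × Fin d) => gaussianReal 0 ((d : ℝ≥0)⁻¹)) with hμ
  have hsub : (WithLp.toLp 2 : _ → Coord n d) ⁻¹'
      {a | ∃ l, R < ‖Matrix.toEuclideanCLM (n := Fin d) (𝕜 := ℂ) (matrixTuple a l)‖} ⊆
      ⋃ q ∈ (Finset.univ ×ˢ s ×ˢ s : Finset (Fin n × _ × _)), {a | R ≤ nrm_fun n d q.1 q.2.1 q.2.2 a} := by
    rintro a ⟨l, hl⟩
    by_contra hcon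
    simp only [Set.mem_iUnion, Set.mem_ofPred_eq, not_exists, not_le] at hcon
    refine absurd (nrm_le_of_net s hnet _ R fun u hu w hw => ?_) (not_le.mpr hl)
    exact (hcon (l, u, w) (by simp [hu, hw])).le
  rw [measureReal_def, gue, ← MeasurableEquiv.coe_toLp, MeasurableEquiv.map_apply,
    ← measureReal_def, MeasurableEquiv.coe_toLp]
  refine (measureReal_mono hsub (measure_ne_top _ _)).trans ((measureReal_biUnion_finset_le _ _).trans ?_)
  have hb : ∀ q ∈ (Finset.univ ×ˢ s ×ˢ s : Finset (Fin n × _ × _)),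
      μ.real {a | R ≤ nrm_fun n d q.1 q.2.1 q.2.2 a} ≤ Real.exp (-d * (1 + Real.log 625)) := by
    intro q hq
    simp only [Finset.mem_product, Finset.mem_univ, true_and] at hq
    refine (nrm_chernoff _ _ 16 R d (by norm_num) hd'.le
      (nrm_fun_sq n d _ _ _ (hs _ hq.1) (hs _ hq.2))).trans (le_of_eq ?_)
    congr 1
    simp only [NNReal.coe_inv, NNReal.coe_natCast, hR]
    field_simp
    ring
  refine (Finset.sum_le_card_nsmul _ _ _ hb).trans ?_
  rw [nsmul_eq_mul, Finset.card_product, Finset.card_product, Finset.card_univ, Fintype.card_fin]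
  have h625 : ((s.card * s.card : ℕ) : ℝ) ≤ Real.exp (d * Real.log 625) := by
    rw [Real.exp_nat_mul, Real.exp_log (by norm_num)]
    have : s.card * s.card ≤ 625 ^ d := by
      calc s.card * s.card ≤ 5 ^ (2 * d) * 5 ^ (2 * d) := Nat.mul_le_mul hcard hcard
        _ = 625 ^ d := by rw [← mul_pow, pow_mul]; norm_num
    exact_mod_cast this
  calc ((n * (s.card * s.card) : ℕ) : ℝ) * Real.exp (-d * (1 + Real.log 625))
      = n * (((s.card * s.card : ℕ) : ℝ) * Real.exp (-d * (1 + Real.log 625))) := by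
        push_cast; ring
    _ ≤ n * (Real.exp (d * Real.log 625) * Real.exp (-d * (1 + Real.log 625))) := by gcongr
    _ = _ := by rw [← Real.exp_add]; congr 2; ring

theorem gue_norm (n : ℕ) : ∃ R : ℝ, 0 < R ∧ ∀ᶠ d : ℕ in atTop, gue n d
    {a | ∃ l, R < ‖Matrix.toEuclideanCLM (n := Fin d) (𝕜 := ℂ) (matrixTuple a l)‖} ≤ 1 / 4 := by
  refine ⟨9 + Real.log 625, by have := Real.log_nonneg (by norm_num : (1 : ℝ) ≤ 625); linarith, ?_⟩
  have h : Tendsto (fun d : ℕ => (n : ℝ) * Real.exp (-d)) atTop (𝓝 (n * 0)) :=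
    (Real.tendsto_exp_neg_atTop_nhds_zero.comp tendsto_natCast_atTop_atTop).const_mul _
  rw [mul_zero] at h
  filter_upwards [h.eventually (ge_mem_nhds (by norm_num : (0 : ℝ) < 1 / 4)),
    eventually_gt_atTop 0] with d h1 hd
  have h2 := (nrm_bound n d hd).trans h1
  rw [← ofReal_measureReal]
  refine (ENNReal.ofReal_le_ofReal h2).trans (le_of_eq ?_)
  rw [ENNReal.ofReal_div_of_pos (by norm_num)]
  simp

end Crest.Agent.R089
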