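import Crest.Agent.R089.Defs

set_option autoImplicit false
set_option linter.deprecated false

namespace Crest.Agent.R089

open Crest.OpAlg MeasureTheory ProbabilityTheory Filter Topology
open scoped NNReal ENNReal

lemma vol_pi_gauss {κ : Type} [Fintype κ] {v : ℝ≥0} (hv : v ≠ 0) :
    (Measure.pi fun _ : κ => gaussianReal 0 v) =
      (volume : Measure (κ → ℝ)).withDensity
        (fun a => ENNReal.ofReal (∏ k, gaussianPDFReal 0 v (a k))) := by
  refine Measure.pi_eq fun s hs => ?_
  have hint : Integrable (fun a : κ → ℝ => ∏ k, gaussianPDFReal 0 v (a k)) volume :=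
    Integrable.fintype_prod (f := fun _ : κ => gaussianPDFReal 0 v)
      (fun _ => integrable_gaussianPDFReal 0 v)
  rw [withDensity_apply _ (MeasurableSet.univ_pi hs), ← ofReal_integral_eq_lintegral_ofReal
    hint.integrableOn (ae_of_all _ fun a => Finset.prod_nonneg fun k _ =>
      gaussianPDFReal_nonneg _ _ _), ← integral_indicator (MeasurableSet.univ_pi hs)]
  have : (Set.univ.pi s).indicator (fun a : κ → ℝ => ∏ k, gaussianPDFReal 0 v (a k)) =
      fun a => ∏ k, (s k).indicator (gaussianPDFReal 0 v) (a k) := by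
    ext a
    by_cases ha : a ∈ Set.univ.pi s
    · rw [Set.indicator_of_mem ha]
      exact Finset.prod_congr rfl fun k _ => (Set.indicator_of_mem (ha k trivial) _).symm
    · rw [Set.indicator_of_notMem ha]
      simp only [Set.mem_pi, Set.mem_univ, true_imp_iff, not_forall] at ha
      obtain ⟨k, hk⟩ := ha
      exact (Finset.prod_eq_zero (Finset.mem_univ k) (Set.indicator_of_notMem hk _)).symm
  rw [this, integral_fintype_prod_volume_eq_prod (fun k => (s k).indicator (gaussianPDFReal 0 v)),
    ENNReal.ofReal_prod_of_nonneg (fun k _ => integral_nonneg fun x =>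
      Set.indicator_nonneg (fun y _ => gaussianPDFReal_nonneg _ _ _) _)]
  refine Finset.prod_congr rfl fun k _ => ?_
  rw [gaussianReal_apply_eq_integral _ hv, integral_indicator (hs k)]

lemma vol_gue_apply (n d : ℕ) (hd : 0 < d) (S : Set (Coord n d)) (hS : MeasurableSet S) :
    gue n d S = ∫⁻ a in S, ENNReal.ofReal
      (Real.exp ((n : ℝ) * (d : ℝ) ^ 2 / 2 * Real.log (d / (2 * Real.pi)) -
        d * (∑ k, a k ^ 2) / 2)) := by
  have hd' : (0 : ℝ) < d := by exact_mod_cast hd
  have hv : ((d : ℝ≥0)⁻¹) ≠ 0 := by simp; omega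
  have hm : Measurable (WithLp.toLp 2 : (Fin n × (Fin d × Fin d) → ℝ) → Coord n d) := by fun_prop
  rw [gue, Measure.map_apply hm hS, vol_pi_gauss hv, withDensity_apply _ (hm hS),
    ← (PiLp.volume_preserving_toLp _).setLIntegral_comp_preimage hS (by fun_prop)]
  refine lintegral_congr fun a => ?_
  congr 1
  simp only [gaussianPDFReal, Finset.prod_mul_distrib, Finset.prod_const, ← Real.exp_sum]
  rw [sub_eq_add_neg, Real.exp_add]
  congr 1
  · have h1 : (√(2 * Real.pi * ((d : ℝ≥0)⁻¹ : ℝ≥0)))⁻¹ =
        Real.exp (Real.log (d / (2 * Real.pi)) / 2) := by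
      rw [Real.exp_half, Real.exp_log (by positivity), ← Real.sqrt_inv]
      congr 1
      simp only [NNReal.coe_inv, NNReal.coe_natCast]
      field_simp
    rw [h1, ← Real.exp_nat_mul]
    congr 1
    simp
    ring
  · congr 1
    rw [Finset.mul_sum, Finset.sum_div, ← Finset.sum_neg_distrib]
    refine Finset.sum_congr rfl fun k _ => ?_
    simp only [NNReal.coe_inv, NNReal.coe_natCast]
    field_simp
    ring

theorem gue_le_volume (n d : ℕ) (hd : 0 < d) (S : Set (Coord n d)) :
    gue n d S ≤ ENNReal.ofReal (Real.exp ((n : ℝ) * (d : ℝ) ^ 2 / 2 * Real.log (d / (2 * Real.pi)))) *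
      volume S := by
  calc gue n d S ≤ gue n d (toMeasurable volume S) := measure_mono (subset_toMeasurable _ _)
    _ ≤ ∫⁻ _ in toMeasurable volume S, ENNReal.ofReal
        (Real.exp ((n : ℝ) * (d : ℝ) ^ 2 / 2 * Real.log (d / (2 * Real.pi)))) := by
      rw [vol_gue_apply n d hd _ (measurableSet_toMeasurable _ _)]
      refine lintegral_mono fun a => ENNReal.ofReal_le_ofReal (Real.exp_le_exp.mpr ?_)
      have : 0 ≤ d * (∑ k, a k ^ 2) / 2 := by positivity
      linarith
    _ = _ := by rw [setLIntegral_const, measure_toMeasurable]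

lemma vol_herm_mul {d : ℕ} (c : EuclideanSpace ℝ (Fin d × Fin d)) (i j : Fin d) :
    hermitianOfCoords c i j * hermitianOfCoords c j i = ((c (i, j) ^ 2 + c (j, i) ^ 2) / 2 : ℝ) := by
  have h2 : (Real.sqrt 2 : ℂ) * (Real.sqrt 2 : ℂ) = 2 := by
    rw [← Complex.ofReal_mul, Real.mul_self_sqrt (by norm_num)]; norm_num
  unfold hermitianOfCoords
  rcases lt_trichotomy i j with h | h | h
  · rw [if_neg h.ne, if_pos h, if_neg h.ne', if_neg h.not_gt, div_mul_div_comm, h2]
    push_cast
    congr 1
    linear_combination (-(c (j, i) : ℂ) ^ 2) * Complex.I_mul_I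
  · subst h; simp; ring
  · rw [if_neg h.ne', if_neg h.not_gt, if_neg h.ne, if_pos h, div_mul_div_comm, h2]
    push_cast
    congr 1
    linear_combination (-(c (i, j) : ℂ) ^ 2) * Complex.I_mul_I

lemma vol_trace_sq {d : ℕ} (c : EuclideanSpace ℝ (Fin d × Fin d)) :
    Matrix.trace (hermitianOfCoords c * hermitianOfCoords c) = ((∑ p, c p ^ 2 : ℝ) : ℂ) := by
  simp only [Matrix.trace, Matrix.diag, Matrix.mul_apply, vol_herm_mul]
  norm_cast
  simp only [add_div, Finset.sum_add_distrib]
  rw [Finset.sum_comm (f := fun i j => c (j, i) ^ 2 / 2), Fintype.sum_prod_type,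
    ← Finset.sum_add_distrib]
  refine Finset.sum_congr rfl fun i _ => ?_
  rw [← Finset.sum_add_distrib]
  refine Finset.sum_congr rfl fun j _ => ?_
  ring

lemma vol_sum_moment (n d : ℕ) (a : Coord n d) :
    ∑ l, (matrixMoment (matrixTuple a) (FreeMonoid.ofList [l, l])).re = (∑ k, a k ^ 2) / d := by
  rw [Fintype.sum_prod_type, Finset.sum_div]
  refine Finset.sum_congr rfl fun l _ => ?_
  have : wordEval (matrixTuple a) (FreeMonoid.ofList [l, l]) = matrixTuple a l * matrixTuple a l := by
    simp [wordEval]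
  rw [matrixMoment, this, matrixTuple, vol_trace_sq, ← Complex.ofReal_natCast, ← Complex.ofReal_inv,
    ← Complex.ofReal_mul, Complex.ofReal_re, div_eq_inv_mul]

theorem volume_hs_ball_le (n d : ℕ) (hd : 0 < d) (r : ℝ) :
    volume {a : Coord n d | ∑ l, (matrixMoment (matrixTuple a) (FreeMonoid.ofList [l, l])).re ≤ r} ≤
      ENNReal.ofReal (Real.exp ((d : ℝ) ^ 2 * r / 2 +
        (n : ℝ) * (d : ℝ) ^ 2 / 2 * Real.log (2 * Real.pi / d))) := by
  have hd' : (0 : ℝ) < d := by exact_mod_cast hd
  simp only [vol_sum_moment]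
  set S := {a : Coord n d | (∑ k, a k ^ 2) / d ≤ r} with hS
  have hSm : MeasurableSet S := measurableSet_le (by fun_prop) measurable_const
  set t := (d : ℝ) ^ 2 * r / 2 + (n : ℝ) * (d : ℝ) ^ 2 / 2 * Real.log (2 * Real.pi / d) with ht
  have h1 : ENNReal.ofReal (Real.exp (-t)) * volume S ≤ 1 := by
    calc ENNReal.ofReal (Real.exp (-t)) * volume S = ∫⁻ _ in S, ENNReal.ofReal (Real.exp (-t)) := by
          rw [setLIntegral_const]
      _ ≤ gue n d S := by
          rw [vol_gue_apply n d hd _ hSm]
          refine setLIntegral_mono' hSm fun a ha => ENNReal.ofReal_le_ofReal (Real.exp_le_exp.mpr ?_)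
          have ha : (∑ k, a k ^ 2) / d ≤ r := ha
          rw [div_le_iff₀ hd'] at ha
          have : Real.log (2 * Real.pi / d) = -Real.log (d / (2 * Real.pi)) := by
            rw [← Real.log_inv, inv_div]
          rw [ht, this]
          nlinarith
      _ ≤ 1 := prob_le_one
  calc volume S = ENNReal.ofReal (Real.exp t) * (ENNReal.ofReal (Real.exp (-t)) * volume S) := by
        rw [← mul_assoc, ← ENNReal.ofReal_mul (Real.exp_pos _).le, ← Real.exp_add]; simp
    _ ≤ ENNReal.ofReal (Real.exp t) * 1 := by gcongr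
    _ = _ := mul_one _

lemma vol_shear_pi {κ : Type} [Fintype κ] (p : κ → Prop) [DecidablePred p]
    (g : (κ → ℝ) → (κ → ℝ)) (hg : Measurable g) (h0 : ∀ a k, p k → g a k = 0)
    (h1 : ∀ a b, (∀ k, p k → a k = b k) → g a = g b) :
    MeasurePreserving (fun a => a + g a) volume volume := by
  let e := MeasurableEquiv.piEquivPiSubtypeProd (fun _ : κ => ℝ) p
  have he : MeasurePreserving e := volume_preserving_piEquivPiSubtypeProd (fun _ : κ => ℝ) p
  let g' : ({k // p k} → ℝ) → ({k // ¬p k} → ℝ) := fun x k => g (e.symm (x, 0)) k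
  have hg' : Measurable g' := by
    refine measurable_pi_lambda _ fun k => (measurable_pi_apply _).comp (hg.comp ?_)
    exact e.symm.measurable.comp (measurable_id.prodMk measurable_const)
  have hs : MeasurePreserving (fun q : ({k // p k} → ℝ) × ({k // ¬p k} → ℝ) => (id q.1, q.2 + g' q.1))
      (volume.prod volume) (volume.prod volume) :=
    (MeasurePreserving.id volume).skew_product (g := fun x y => y + g' x)
      (measurable_snd.add (hg'.comp measurable_fst))
      (ae_of_all _ fun x => map_add_right_eq_self _ _)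
  have := he.symm.comp (hs.comp he)
  have hfun : (fun a => a + g a) = ⇑e.symm ∘ (fun q : ({k // p k} → ℝ) × ({k // ¬p k} → ℝ) =>
      (id q.1, q.2 + g' q.1)) ∘ ⇑e := by
    funext a k
    have hga : g (e.symm ((e a).1, 0)) = g a := by
      refine h1 _ _ fun k hk => ?_
      simp [e, MeasurableEquiv.piEquivPiSubtypeProd, Equiv.piEquivPiSubtypeProd, hk]
    by_cases hk : p k
    · simp [e, MeasurableEquiv.piEquivPiSubtypeProd, Equiv.piEquivPiSubtypeProd, hk, h0 a k hk]
    · simp only [Function.comp, id, Pi.add_apply, g', hga]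
      simp [e, MeasurableEquiv.piEquivPiSubtypeProd, Equiv.piEquivPiSubtypeProd, hk, hga]
  rw [hfun]
  exact this

/-- coordinates of a Hermitian matrix -/
noncomputable def vol_coords {d : ℕ} (M : Matrix (Fin d) (Fin d) ℂ) (p : Fin d × Fin d) : ℝ :=
  if p.1 = p.2 then (M p.1 p.1).re else if p.1 < p.2 then Real.sqrt 2 * (M p.1 p.2).re
    else Real.sqrt 2 * (M p.2 p.1).im

lemma vol_herm_add_coords {d : ℕ} (c : Fin d × Fin d → ℝ) (M : Matrix (Fin d) (Fin d) ℂ)
    (hM : M.IsHermitian) :
    hermitianOfCoords (WithLp.toLp 2 fun p => c p + vol_coords M p) =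
      hermitianOfCoords (WithLp.toLp 2 c) + M := by
  have h2 : (Real.sqrt 2 : ℂ) ≠ 0 := by simp
  ext i j
  simp only [hermitianOfCoords, vol_coords, Matrix.add_apply]
  rcases lt_trichotomy i j with h | h | h
  · simp only [if_neg h.ne, if_pos h, if_neg h.ne', if_neg h.not_gt]
    conv_rhs => rw [← Complex.re_add_im (M i j)]
    push_cast
    field_simp
    ring
  · subst h
    simp only [if_true]
    push_cast
    congr 1
    exact hM.coe_re_apply_self i
  · simp only [if_neg h.ne, if_pos h, if_neg h.ne', if_neg h.not_gt]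
    have : M i j = (M j i).re - (M j i).im * Complex.I := by
      rw [← hM.apply i j]
      apply Complex.ext <;> simp
    rw [this]
    push_cast
    field_simp
    ring

lemma vol_herm_isHermitian {d : ℕ} (c : EuclideanSpace ℝ (Fin d × Fin d)) :
    (hermitianOfCoords c).IsHermitian := by
  ext i j
  simp only [Matrix.conjTranspose_apply, hermitianOfCoords]
  rcases lt_trichotomy i j with h | h | h
  · simp [h.ne, h, h.ne', h.not_gt]
  · subst h; simp
  · simp [h.ne, h, h.ne', h.not_gt, sub_eq_add_neg]

lemma vol_continuous_matrixTuple (n d : ℕ) (l : Fin n) :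
    Continuous fun a : Coord n d => matrixTuple a l := by
  refine continuous_matrix fun i j => ?_
  simp only [matrixTuple, hermitianOfCoords]
  split_ifs <;> fun_prop

theorem exists_shear (n d : ℕ) (c : Fin n → Option (Fin n × Fin n))
    (hc : ∀ i j k, c i = some (j, k) → c j = none ∧ c k = none) :
    ∃ T : Coord n d → Coord n d, MeasurePreserving T volume volume ∧
      ∀ a, matrixTuple (T a) = shearT c (matrixTuple a) := by
  let Y : Coord n d → Fin n → Matrix (Fin d) (Fin d) ℂ := fun a i =>
    (c i).elim 0 (fun p => matrixTuple a p.1 * matrixTuple a p.2 * matrixTuple a p.1)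
  let g : (Fin n × (Fin d × Fin d) → ℝ) → (Fin n × (Fin d × Fin d) → ℝ) := fun a k =>
    vol_coords (Y (WithLp.toLp 2 a) k.1) k.2
  have hY : ∀ i, Continuous fun a => Y a i := by
    intro i
    simp only [Y]
    rcases c i with _ | p
    · exact continuous_const
    · exact ((vol_continuous_matrixTuple n d _).mul (vol_continuous_matrixTuple n d _)).mul
        (vol_continuous_matrixTuple n d _)
  have hg : Measurable g := by
    refine Continuous.measurable (continuous_pi fun k => ?_)
    have h1 : Continuous fun a : Fin n × (Fin d × Fin d) → ℝ => Y (WithLp.toLp 2 a) k.1 :=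
      (hY k.1).comp (by fun_prop)
    simp only [g, vol_coords]
    split_ifs <;> fun_prop
  have hsh := vol_shear_pi (fun k : Fin n × (Fin d × Fin d) => c k.1 = none) g hg
    (by
      intro a k hk
      simp [g, Y, hk, vol_coords])
    (by
      intro a b hab
      have hm : ∀ j, c j = none → matrixTuple (WithLp.toLp 2 a : Coord n d) j =
          matrixTuple (WithLp.toLp 2 b : Coord n d) j := by
        intro j hj
        simp only [matrixTuple]
        congr 2
        ext p
        exact hab (j, p) hj
      ext k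
      simp only [g, Y]
      rcases hk : c k.1 with _ | ⟨j, l⟩
      · rfl
      · simp only [Option.elim_some, hm j (hc _ _ _ hk).1, hm l (hc _ _ _ hk).2])
  refine ⟨_, (PiLp.volume_preserving_toLp _).comp (hsh.comp (PiLp.volume_preserving_ofLp _)),
    fun a => ?_⟩
  ext1 i
  have hH : (Y a i).IsHermitian := by
    simp only [Y]
    rcases c i with _ | p
    · exact Matrix.isHermitian_zero
    · simp only [Option.elim_some, Matrix.IsHermitian, Matrix.conjTranspose_mul, matrixTuple,
        (vol_herm_isHermitian _).eq, Matrix.mul_assoc]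
  exact vol_herm_add_coords (fun p => a (i, p)) (Y a i) hH

end Crest.Agent.R089
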