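import Crest.Agent.R089.Moments
import Crest.Agent.R089.Norm
import Crest.Agent.R089.Vol

set_option autoImplicit false
set_option linter.deprecated false

namespace Crest.Agent.R089

open Crest.OpAlg MeasureTheory ProbabilityTheory Filter Topology
open scoped NNReal ENNReal

/-- inverse of the cubic shear -/
def chi_unshear {n : ℕ} {B : Type*} [Ring B] (c : Fin n → Option (Fin n × Fin n)) (M : Fin n → B) :
    Fin n → B :=
  fun i => M i - (c i).elim 0 (fun p => M p.1 * M p.2 * M p.1)

lemma chi_unshear_shear {n : ℕ} {B : Type*} [Ring B] (c : Fin n → Option (Fin n × Fin n))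
    (hc : ∀ i j k, c i = some (j, k) → c j = none ∧ c k = none) (M : Fin n → B) :
    chi_unshear c (shearT c M) = M := by
  funext i
  rcases h : c i with _ | ⟨j, k⟩
  · simp [chi_unshear, shearT, h]
  · simp [chi_unshear, shearT, h, (hc _ _ _ h).1, (hc _ _ _ h).2]

/-- second moment of the unsheared tuple in terms of word moments -/
def chi_comb {n : ℕ} (c : Fin n → Option (Fin n × Fin n)) (μ : List (Fin n) → ℂ) (l : Fin n) : ℂ :=
  (c l).elim (μ [l, l]) (fun p => μ [l, l] - μ [l, p.1, p.2, p.1] - μ [p.1, p.2, p.1, l] +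
    μ [p.1, p.2, p.1, p.1, p.2, p.1])

lemma chi_comb_eq {n : ℕ} {B : Type*} [Ring B] [Algebra ℂ B] (φ : B →ₗ[ℂ] ℂ)
    (c : Fin n → Option (Fin n × Fin n)) (X : Fin n → B) (l : Fin n) :
    φ (chi_unshear c X l * chi_unshear c X l) =
      chi_comb c (fun w => φ (wordEval X (FreeMonoid.ofList w))) l := by
  rcases h : c l with _ | ⟨j, k⟩
  · simp [chi_unshear, chi_comb, h, wordEval]
  · simp only [chi_unshear, chi_comb, h, wordEval, Option.elim_some, FreeMonoid.lift_ofList,
      List.map_cons, List.map_nil, List.prod_cons, List.prod_nil, mul_one, ← map_sub, ← map_add]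
    congr 1
    noncomm_ring

lemma chi_comb_close {n : ℕ} (c : Fin n → Option (Fin n × Fin n)) (μ ν : List (Fin n) → ℂ)
    (ε : ℝ) (h : ∀ w : List (Fin n), w.length ≤ 6 → ‖μ w - ν w‖ < ε) (l : Fin n) :
    ‖chi_comb c μ l - chi_comb c ν l‖ ≤ 4 * ε := by
  have h1 := h [l, l] (by simp)
  have hε : 0 < ε := (norm_nonneg _).trans_lt h1
  rcases hc : c l with _ | ⟨j, k⟩
  · simp only [chi_comb, hc, Option.elim_none]; linarith
  · simp only [chi_comb, hc, Option.elim_some]
    have h2 := h [l, j, k, j] (by simp)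
    have h3 := h [j, k, j, l] (by simp)
    have h4 := h [j, k, j, j, k, j] (by simp)
    have : μ [l, l] - μ [l, j, k, j] - μ [j, k, j, l] + μ [j, k, j, j, k, j] -
        (ν [l, l] - ν [l, j, k, j] - ν [j, k, j, l] + ν [j, k, j, j, k, j]) =
        (μ [l, l] - ν [l, l]) - (μ [l, j, k, j] - ν [l, j, k, j]) - (μ [j, k, j, l] - ν [j, k, j, l]) +
          (μ [j, k, j, j, k, j] - ν [j, k, j, j, k, j]) := by ring
    rw [this]
    refine (norm_add_le _ _).trans ?_
    have h5 := norm_sub_le ((μ [l, l] - ν [l, l]) - (μ [l, j, k, j] - ν [l, j, k, j]))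
      (μ [j, k, j, l] - ν [j, k, j, l])
    have h6 := norm_sub_le (μ [l, l] - ν [l, l]) (μ [l, j, k, j] - ν [l, j, k, j])
    linarith

/-- normalised trace -/
noncomputable def chi_tr (d : ℕ) : Matrix (Fin d) (Fin d) ℂ →ₗ[ℂ] ℂ :=
  (d : ℂ)⁻¹ • Matrix.traceLinearMap (Fin d) ℂ ℂ

lemma chi_tr_word {n d : ℕ} (M : Fin n → Matrix (Fin d) (Fin d) ℂ) (w : FreeMonoid (Fin n)) :
    chi_tr d (wordEval M w) = matrixMoment M w := rfl

lemma chi_vol_upper {A : Type*} [Ring A] [Algebra ℂ A] (τ : A →ₗ[ℂ] ℂ) {n : ℕ}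
    (c : Fin n → Option (Fin n × Fin n))
    (hc : ∀ i j k, c i = some (j, k) → c j = none ∧ c k = none)
    (S : Fin n → A) (hS : ∀ i, τ (S i * S i) = 1) (R : ℝ) (d : ℕ) (hd : 0 < d) :
    volume (microstates τ (shearT c S) R 6 d (1 / (4 * n + 1))) ≤
      ENNReal.ofReal (Real.exp ((d : ℝ) ^ 2 * (n + 1) / 2 +
        (n : ℝ) * (d : ℝ) ^ 2 / 2 * Real.log (2 * Real.pi / d))) := by
  obtain ⟨T, hT, hTa⟩ := exists_shear n d c hc
  let f : Coord n d → ℝ := fun a =>
    ∑ l, (chi_tr d (chi_unshear c (matrixTuple a) l * chi_unshear c (matrixTuple a) l)).re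
  have hU : ∀ l, Continuous fun a : Coord n d => chi_unshear c (matrixTuple a) l := by
    intro l
    simp only [chi_unshear]
    refine (vol_continuous_matrixTuple n d l).sub ?_
    rcases c l with _ | p
    · exact continuous_const
    · exact ((vol_continuous_matrixTuple n d _).mul (vol_continuous_matrixTuple n d _)).mul
        (vol_continuous_matrixTuple n d _)
  have hf : Continuous f := by
    refine continuous_finset_sum _ fun l _ => Complex.continuous_re.comp ?_
    exact (chi_tr d).continuous_of_finiteDimensional.comp ((hU l).mul (hU l))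
  have hsub : microstates τ (shearT c S) R 6 d (1 / (4 * n + 1)) ⊆ {a | f a ≤ n + 1} := by
    rintro a ⟨-, ha⟩
    have hl : ∀ l, (chi_tr d (chi_unshear c (matrixTuple a) l *
        chi_unshear c (matrixTuple a) l)).re ≤ 1 + 4 * (1 / (4 * n + 1)) := by
      intro l
      have h1 := chi_comb_close c (fun w => chi_tr d (wordEval (matrixTuple a) (FreeMonoid.ofList w)))
        (fun w => τ (wordEval (shearT c S) (FreeMonoid.ofList w))) _
        (fun w hw => ha (FreeMonoid.ofList w) hw) l
      rw [← chi_comb_eq, ← chi_comb_eq, chi_unshear_shear c hc, hS] at h1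
      have h2 := (Complex.re_le_norm _).trans h1
      rw [Complex.sub_re, Complex.one_re] at h2
      linarith
    change f a ≤ n + 1
    refine (Finset.sum_le_card_nsmul _ _ _ fun l _ => hl l).trans ?_
    rw [Finset.card_univ, Fintype.card_fin, nsmul_eq_mul]
    have h1 : (n : ℝ) * (4 * (1 / (4 * n + 1))) ≤ 1 := by
      rw [mul_one_div, ← mul_div_assoc, div_le_one (by positivity)]
      linarith
    linarith
  refine (measure_mono hsub).trans ?_
  rw [← hT.measure_preimage (measurableSet_le hf.measurable measurable_const).nullMeasurableSet]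
  refine le_trans (le_of_eq ?_) (volume_hs_ball_le n d hd (n + 1))
  congr 1
  ext a
  simp only [Set.mem_preimage, Set.mem_ofPred_eq, f, hTa, chi_unshear_shear c hc, ← chi_tr_word]
  simp [wordEval]

theorem chi_upper {A : Type*} [Ring A] [Algebra ℂ A] (τ : A →ₗ[ℂ] ℂ) {n : ℕ}
    (c : Fin n → Option (Fin n × Fin n))
    (hc : ∀ i j k, c i = some (j, k) → c j = none ∧ c k = none)
    (S : Fin n → A) (hS : ∀ i, τ (S i * S i) = 1) :
    chi τ (shearT c S) ≤ (((n : ℝ) / 2 * Real.log (2 * Real.pi * Real.exp 1) + 1 : ℝ) : EReal) := by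
  refine iSup₂_le fun R _ => ?_
  refine (iInf_le _ 6).trans ((iInf_le _ (1 / (4 * (n : ℝ) + 1))).trans
    ((iInf_le _ (by positivity)).trans ?_))
  refine limsup_le_of_le (by isBoundedDefault) ?_
  filter_upwards [eventually_gt_atTop 0] with d hd
  have hd' : (0 : ℝ) < d := by exact_mod_cast hd
  have h1 := ENNReal.log_monotone (chi_vol_upper τ c hc S hS R d hd)
  rw [ENNReal.log_ofReal_of_pos (Real.exp_pos _), Real.log_exp] at h1
  calc _ ≤ ((((d : ℝ) ^ 2)⁻¹ : ℝ) : EReal) * (((d : ℝ) ^ 2 * (n + 1) / 2 +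
        (n : ℝ) * (d : ℝ) ^ 2 / 2 * Real.log (2 * Real.pi / d) : ℝ) : EReal) +
      (((n : ℝ) / 2 * Real.log d : ℝ) : EReal) := by
        gcongr
    _ ≤ _ := by
      rw [← EReal.coe_mul, ← EReal.coe_add, EReal.coe_le_coe_iff,
        Real.log_div (by positivity) hd'.ne', Real.log_mul (by positivity) (Real.exp_pos 1).ne',
        Real.log_exp]
      have : ((d : ℝ) ^ 2)⁻¹ * ((d : ℝ) ^ 2 * (n + 1) / 2 +
        (n : ℝ) * (d : ℝ) ^ 2 / 2 * (Real.log (2 * Real.pi) - Real.log d)) =
          (n + 1) / 2 + n / 2 * (Real.log (2 * Real.pi) - Real.log d) := by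
        field_simp
      rw [this]
      linarith

/-- convergence in probability under the GUE -/
def chi_Conv (n : ℕ) (F : (d : ℕ) → Coord n d → ℂ) (z : ℂ) : Prop :=
  ∀ ε : ℝ, 0 < ε → Tendsto (fun d : ℕ => gue n d {a | ε ≤ ‖F d a - z‖}) atTop (𝓝 0)

lemma chi_Conv_add {n : ℕ} {F G : (d : ℕ) → Coord n d → ℂ} {z y : ℂ} (hF : chi_Conv n F z)
    (hG : chi_Conv n G y) : chi_Conv n (fun d a => F d a + G d a) (z + y) := by
  intro ε hε
  have h := (hF (ε / 2) (by positivity)).add (hG (ε / 2) (by positivity))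
  rw [add_zero] at h
  refine tendsto_of_tendsto_of_tendsto_of_le_of_le tendsto_const_nhds h (fun _ => zero_le)
    fun d => le_trans (measure_mono ?_) (measure_union_le _ _)
  intro a ha
  by_contra hcon
  simp only [Set.mem_union, Set.mem_ofPred_eq, not_or, not_le] at hcon ha
  have : F d a + G d a - (z + y) = (F d a - z) + (G d a - y) := by ring
  rw [this] at ha
  have := norm_add_le (F d a - z) (G d a - y)
  linarith [hcon.1, hcon.2]

lemma chi_word_step {n : ℕ} {B : Type*} [Ring B] (c : Fin n → Option (Fin n × Fin n))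
    (X : Fin n → B) (p w : List (Fin n)) (l : Fin n) :
    wordEval X (FreeMonoid.ofList p) * wordEval (shearT c X) (FreeMonoid.ofList (l :: w)) =
      wordEval X (FreeMonoid.ofList (p ++ [l])) * wordEval (shearT c X) (FreeMonoid.ofList w) +
      (c l).elim 0 (fun q => wordEval X (FreeMonoid.ofList (p ++ [q.1, q.2, q.1])) *
        wordEval (shearT c X) (FreeMonoid.ofList w)) := by
  have h1 : wordEval (shearT c X) (FreeMonoid.ofList (l :: w)) =
      shearT c X l * wordEval (shearT c X) (FreeMonoid.ofList w) := by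
    simp [wordEval]
  rw [h1]
  generalize wordEval (shearT c X) (FreeMonoid.ofList w) = Y
  rcases h : c l with _ | ⟨j, k⟩
  · simp [wordEval, shearT, h, mul_assoc]
  · simp [wordEval, shearT, h, mul_assoc, mul_add, add_mul]

lemma chi_conv_word {A : Type*} [Ring A] [Algebra ℂ A] (τ : A →ₗ[ℂ] ℂ) {n : ℕ}
    (c : Fin n → Option (Fin n × Fin n)) (S : Fin n → A) (h0 : τ 1 = 1)
    (hrec : ∀ (l : Fin n) (w : List (Fin n)), τ (wordEval S (FreeMonoid.ofList (l :: w))) =
      ∑ k ∈ Finset.range w.length, if w[k]? = some l then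
        τ (wordEval S (FreeMonoid.ofList (w.take k))) *
          τ (wordEval S (FreeMonoid.ofList (w.drop (k + 1)))) else 0) (w : List (Fin n)) :
    ∀ p : List (Fin n), chi_Conv n (fun d a => chi_tr d (wordEval (matrixTuple a) (FreeMonoid.ofList p) *
      wordEval (shearT c (matrixTuple a)) (FreeMonoid.ofList w)))
      (τ (wordEval S (FreeMonoid.ofList p) * wordEval (shearT c S) (FreeMonoid.ofList w))) := by
  induction w with
  | nil =>
    intro p ε hε
    have := gue_moments n (fun w => τ (wordEval S (FreeMonoid.ofList w)))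
      (by simpa [wordEval] using h0) hrec p ε hε
    simpa [wordEval, ← chi_tr_word] using this
  | cons l w ih =>
    intro p
    simp only [chi_word_step, map_add]
    refine chi_Conv_add (ih _) ?_
    rcases c l with _ | q
    · intro ε hε
      simp [hε.not_ge]
    · exact ih _

lemma chi_gue_half {A : Type*} [Ring A] [Algebra ℂ A] (τ : A →ₗ[ℂ] ℂ) {n : ℕ}
    (c : Fin n → Option (Fin n × Fin n)) (S : Fin n → A) (h0 : τ 1 = 1)
    (hrec : ∀ (l : Fin n) (w : List (Fin n)), τ (wordEval S (FreeMonoid.ofList (l :: w))) =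
      ∑ k ∈ Finset.range w.length, if w[k]? = some l then
        τ (wordEval S (FreeMonoid.ofList (w.take k))) *
          τ (wordEval S (FreeMonoid.ofList (w.drop (k + 1)))) else 0) (m : ℕ) (ε : ℝ) (hε : 0 < ε) :
    ∀ᶠ d : ℕ in atTop, gue n d {a | ∃ w : FreeMonoid (Fin n), (FreeMonoid.toList w).length ≤ m ∧
      ε ≤ ‖matrixMoment (shearT c (matrixTuple a)) w - τ (wordEval (shearT c S) w)‖} ≤ 1 / 4 := by
  let W := (List.finite_length_le (Fin n) m).toFinset
  have h : Tendsto (fun d : ℕ => ∑ w ∈ W, gue n d {a | ε ≤ ‖matrixMoment (shearT c (matrixTuple a))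
      (FreeMonoid.ofList w) - τ (wordEval (shearT c S) (FreeMonoid.ofList w))‖}) atTop
      (𝓝 (∑ _w ∈ W, 0)) := by
    refine tendsto_finset_sum _ fun w _ => ?_
    have := chi_conv_word τ c S h0 hrec w [] ε hε
    simpa [wordEval, ← chi_tr_word] using this
  rw [Finset.sum_const_zero] at h
  filter_upwards [h.eventually (ge_mem_nhds (by norm_num : (0 : ℝ≥0∞) < 1 / 4))] with d hd
  refine le_trans (le_trans (measure_mono ?_) (measure_biUnion_finset_le _ _)) hd
  rintro a ⟨w, hw, ha⟩
  simp only [Set.mem_iUnion]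
  exact ⟨FreeMonoid.toList w, by simpa [W] using hw, ha⟩

theorem chi_lower {A : Type*} [Ring A] [Algebra ℂ A] (τ : A →ₗ[ℂ] ℂ) {n : ℕ}
    (c : Fin n → Option (Fin n × Fin n))
    (hc : ∀ i j k, c i = some (j, k) → c j = none ∧ c k = none)
    (S : Fin n → A) (h0 : τ 1 = 1)
    (hrec : ∀ (l : Fin n) (w : List (Fin n)), τ (wordEval S (FreeMonoid.ofList (l :: w))) =
      ∑ k ∈ Finset.range w.length, if w[k]? = some l then
        τ (wordEval S (FreeMonoid.ofList (w.take k))) *
          τ (wordEval S (FreeMonoid.ofList (w.drop (k + 1)))) else 0) :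
    ⊥ < chi τ (shearT c S) := by
  obtain ⟨R, hR, hRd⟩ := gue_norm n
  refine lt_of_lt_of_le (EReal.bot_lt_coe (-1)) (le_iSup₂_of_le (R + R * R * R) (by positivity) ?_)
  refine le_iInf fun m => le_iInf fun ε => le_iInf fun hε => ?_
  refine le_limsup_of_frequently_le (Eventually.frequently ?_) (by isBoundedDefault)
  filter_upwards [hRd, chi_gue_half τ c S h0 hrec m ε hε, eventually_gt_atTop 0] with d h1 h2 hd
  have hd' : (0 : ℝ) < d := by exact_mod_cast hd
  have hd1 : (1 : ℝ) ≤ d := by exact_mod_cast hd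
  obtain ⟨T, hT, hTa⟩ := exists_shear n d c hc
  set Γ := microstates τ (shearT c S) (R + R * R * R) m d ε with hΓ
  have hcompl : gue n d (T ⁻¹' Γ)ᶜ ≤ 1 / 4 + 1 / 4 := by
    refine le_trans (le_trans (measure_mono ?_) (measure_union_le _ _)) (add_le_add h1 h2)
    intro a ha
    by_contra hcon
    simp only [Set.mem_union, Set.mem_ofPred_eq, not_or, not_exists, not_lt, not_and, not_le]
      at hcon
    refine ha ⟨fun l => ?_, fun w hw => ?_⟩
    · rw [hTa, shearT, map_add]
      refine (norm_add_le _ _).trans (add_le_add (hcon.1 l) ?_)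
      rcases c l with _ | q
      · simp only [Option.elim_none, map_zero, norm_zero]; positivity
      · simp only [Option.elim_some, map_mul]
        refine (norm_mul_le _ _).trans (mul_le_mul ((norm_mul_le _ _).trans
          (mul_le_mul (hcon.1 _) (hcon.1 _) (norm_nonneg _) hR.le)) (hcon.1 _) (norm_nonneg _)
          (by positivity))
    · rw [hTa]; exact hcon.2 w hw
  have hhalf : 1 / 2 ≤ gue n d (T ⁻¹' Γ) := by
    have h3 : gue n d Set.univ ≤ gue n d (T ⁻¹' Γ) + gue n d (T ⁻¹' Γ)ᶜ := by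
      rw [← Set.union_compl_self (T ⁻¹' Γ)]; exact measure_union_le _ _
    rw [measure_univ] at h3
    have h4 : (1 / 4 + 1 / 4 : ℝ≥0∞) = 1 / 2 := by
      rw [← ENNReal.add_div, ENNReal.div_eq_div_iff (by norm_num) (by norm_num) (by norm_num)
        (by norm_num)]
      norm_num
    rw [h4] at hcompl
    have h5 : (1 : ℝ≥0∞) / 2 + 1 / 2 ≤ gue n d (T ⁻¹' Γ) + 1 / 2 := by
      rw [ENNReal.add_halves]; exact h3.trans (add_le_add le_rfl hcompl)
    exact (ENNReal.add_le_add_iff_right (by norm_num)).mp h5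
  set t := (n : ℝ) * (d : ℝ) ^ 2 / 2 * Real.log (d / (2 * Real.pi)) with ht
  have hvol : ENNReal.ofReal (Real.exp (-t - 1)) ≤ volume Γ := by
    have h3 := hhalf.trans (gue_le_volume n d hd (T ⁻¹' Γ))
    have h4 : volume (T ⁻¹' Γ) ≤ volume Γ := by
      rw [← hT.map_eq]
      conv_lhs => rw [hT.map_eq]
      exact Measure.le_map_apply hT.measurable.aemeasurable _
    calc ENNReal.ofReal (Real.exp (-t - 1)) =
          ENNReal.ofReal (Real.exp (-t)) * ENNReal.ofReal (Real.exp (-1)) := by
          rw [← ENNReal.ofReal_mul (Real.exp_pos _).le, ← Real.exp_add]; rfl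
      _ ≤ ENNReal.ofReal (Real.exp (-t)) * (1 / 2) := by
          gcongr
          have : Real.exp (-1) ≤ 1 / 2 := by
            rw [Real.exp_neg, one_div]
            have := Real.add_one_le_exp 1
            exact inv_anti₀ (by norm_num) (by linarith)
          refine (ENNReal.ofReal_le_ofReal this).trans (le_of_eq ?_)
          rw [ENNReal.ofReal_div_of_pos (by norm_num)]
          simp
      _ ≤ ENNReal.ofReal (Real.exp (-t)) * (ENNReal.ofReal (Real.exp t) * volume (T ⁻¹' Γ)) := by
          gcongr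
      _ = volume (T ⁻¹' Γ) := by
          rw [← mul_assoc, ← ENNReal.ofReal_mul (Real.exp_pos _).le, ← Real.exp_add]; simp
      _ ≤ _ := h4
  have h5 := ENNReal.log_monotone hvol
  rw [ENNReal.log_ofReal_of_pos (Real.exp_pos _), Real.log_exp] at h5
  calc _ ≤ ((((d : ℝ) ^ 2)⁻¹ : ℝ) : EReal) * ((-t - 1 : ℝ) : EReal) +
      (((n : ℝ) / 2 * Real.log d : ℝ) : EReal) := by
        rw [← EReal.coe_mul, ← EReal.coe_add, EReal.coe_le_coe_iff, ht,
          Real.log_div hd'.ne' (by positivity)]
        have : ((d : ℝ) ^ 2)⁻¹ * (-((n : ℝ) * (d : ℝ) ^ 2 / 2 *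
            (Real.log d - Real.log (2 * Real.pi))) - 1) =
            -(n / 2 * (Real.log d - Real.log (2 * Real.pi))) - ((d : ℝ) ^ 2)⁻¹ := by
          field_simp
        rw [this]
        have h6 : ((d : ℝ) ^ 2)⁻¹ ≤ 1 := inv_le_one_of_one_le₀ (by nlinarith)
        have h7 : 0 ≤ Real.log (2 * Real.pi) := Real.log_nonneg (by linarith [Real.pi_gt_three])
        have h8 : 0 ≤ (n : ℝ) / 2 * Real.log (2 * Real.pi) := by positivity
        linarith
    _ ≤ _ := by gcongr

end Crest.Agent.R089
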