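import Mathlib
import Crest.Prelude.Def_CStarRep
import Crest.Prelude.Def_FreeEntropy

set_option autoImplicit false

namespace Crest.Agent.R089

open Crest.OpAlg MeasureTheory ProbabilityTheory
open scoped NNReal ENNReal

/-- Coordinates of an `n`-tuple of Hermitian `d × d` matrices. -/
abbrev Coord (n d : ℕ) : Type := EuclideanSpace ℝ (Fin n × (Fin d × Fin d))

/-- The law of `n` independent normalised GUE matrices in the coordinates of `matrixTuple`:
all coordinates are independent centred Gaussians of variance `1/d`. -/
noncomputable def gue (n d : ℕ) : Measure (Coord n d) :=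
  (Measure.pi fun _ : Fin n × (Fin d × Fin d) => gaussianReal 0 ((d : ℝ≥0)⁻¹)).map
    (WithLp.toLp 2)

instance gue_prob (n d : ℕ) : IsProbabilityMeasure (gue n d) := by
  unfold gue
  exact Measure.isProbabilityMeasure_map (by fun_prop)

/-- The cubic shear on tuples of ring elements: `c i = some (j, k)` adds `M j * M k * M j`
to the `i`-th entry. -/
def shearT {n : ℕ} {B : Type*} [Ring B] (c : Fin n → Option (Fin n × Fin n)) (M : Fin n → B) :
    Fin n → B :=
  fun i => M i + (c i).elim 0 (fun p => M p.1 * M p.2 * M p.1)

end Crest.Agent.R089
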