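import Crest.Agent.R089.Model

set_option autoImplicit false
set_option linter.deprecated false

namespace Crest.Agent.R089

open Crest.OpAlg
open scoped ComplexConjugate TensorProduct

lemma sum_le_ps {L : Type} [Fintype L] [DecidableEq L] (isV : L → Bool) {ι : Type*} [Fintype ι]
    (p : ι → List L) (hp : Function.Injective p) (τ : List Bool) (hτ : ∀ i, (p i).map isV = τ)
    {G : List L → ℝ} (hG : ∀ w, 0 ≤ G w) : ∑ i, G (p i) ≤ ps isV τ G := by
  rw [← Finset.sum_image (s := Finset.univ) (g := p) (f := G) (fun a _ b _ h => hp h)]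
  refine Finset.sum_le_sum_of_subset_of_nonneg ?_ fun α _ _ => hG _
  intro α hα
  obtain ⟨i, _, rfl⟩ := Finset.mem_image.mp hα
  exact (mem_pw isV _ _).mpr (hτ i)

lemma le_ps {L : Type} [Fintype L] (isV : L → Bool) (w : List L)
    {G : List L → ℝ} (hG : ∀ w, 0 ≤ G w) : G w ≤ ps isV (w.map isV) G :=
  Finset.single_le_sum (f := G) (fun w _ => hG w) ((mem_pw isV _ _).mpr rfl)

lemma quad_bound {t : ℝ} (ht : 0 < t) (g : ℂ) {N : ℝ} (h : t * ‖g‖ ^ 2 ≤ N) :
    2 * g.re - N ≤ 1 / t := by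
  have h1 : g.re ≤ ‖g‖ := Complex.re_le_norm g
  have h2 : 0 ≤ t * (‖g‖ - 1 / t) ^ 2 := by positivity
  have h3 : t * (‖g‖ - 1 / t) ^ 2 = t * ‖g‖ ^ 2 - 2 * ‖g‖ + 1 / t := by field_simp; ring
  linarith

namespace Idx

variable {n D : ℕ} {I : Idx n D} {A : Type} [CStarAlgebra A] {F : FockModel (Fin n ⊕ Fin n) A}

lemma sum_M_le (I : Idx n D) (F : FockModel (Fin n ⊕ Fin n) A) (y : A) (S : Finset (List Bool)) :
    ∑ σ ∈ S, I.letters.M (fun w => F.cf w y) σ ≤ F.nsq y := by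
  unfold Letters.M ps
  rw [← Finset.sum_biUnion]
  · exact F.bessel y _
  · intro σ _ τ _ hστ
    rw [Function.onFun, Finset.disjoint_left]
    intro w h1 h2
    rw [mem_pw] at h1 h2
    exact hστ (h1.symm.trans h2)

section generic
variable {y : A} {U : A ⊗[ℂ] A} {e : Fin n ⊕ Fin n} {ρ : ℂ}
  (he : ∀ α β, F.cf (α ++ e :: β) y = ρ * F.psi 1 1 α β U)
include he

lemma g_left (v w : Fin n ⊕ Fin n) (hvw : w ≠ v) (α β : List (Fin n ⊕ Fin n))
    (hα : α.getLast? ≠ some w) :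
    ρ * F.psi (F.s v * F.s w) 1 α β U = F.cf (α ++ w :: v :: e :: β) y := by
  rw [F.psi_right _ _ _ _ _ hα, ← one_mul (F.s v), F.psi_right _ _ _ _ _ (by simpa using hvw), ← he]
  simp

lemma g_right (v w : Fin n ⊕ Fin n) (hvw : w ≠ v) (α β : List (Fin n ⊕ Fin n)) :
    ρ * F.psi 1 (F.s w * F.s v) α β U = F.cf (α ++ e :: v :: w :: β) y +
      ann w (fun β' => F.cf (α ++ e :: v :: β') y) β +
      ann w (ann v (fun β' => F.cf (α ++ e :: β') y)) β := by
  have h1 : ∀ β, ρ * F.psi 1 (F.s v) α β U = F.cf (α ++ e :: v :: β) y +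
      ann v (fun β' => F.cf (α ++ e :: β') y) β := by
    intro β
    rw [← mul_one (F.s v), F.psi_left, mul_add, mul_ann, ← he]
    simp only [← he]
  rw [F.psi_left, mul_add, mul_ann, h1]
  simp only [h1]
  rw [ann_add]
  simp [ann, hvw, add_assoc]

lemma g_mid (v : Fin n ⊕ Fin n) (α β : List (Fin n ⊕ Fin n)) (hα : α.getLast? ≠ some v) :
    ρ * F.psi (F.s v) (F.s v) α β U = F.cf (α ++ v :: e :: v :: β) y +
      ann v (fun β' => F.cf (α ++ v :: e :: β') y) β := by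
  have h0 : F.psi (F.s v) (F.s v) α β U = F.psi (1 * F.s v) (F.s v * 1) α β U := by simp
  rw [h0, F.psi_right _ _ _ _ _ hα, F.psi_left, mul_add, mul_ann, ← he]
  simp only [← he]
  simp

end generic

lemma Good.rel {s : ℝ} {y : A} {U : Fin n → A ⊗[ℂ] A} (h : I.Good F s y U)
    (α : List (Fin n ⊕ Fin n)) (hα : ∀ l ∈ α, I.letters.isV l = false) :
    I.letters.Rel (Real.sqrt s) (fun β => F.cf (α ++ β) y) := by
  have hl : ∀ l, I.isV l = true → α.getLast? ≠ some l := by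
    intro l hl h'
    have := hα l (List.mem_of_getLast? h')
    rw [show I.letters.isV l = I.isV l from rfl, hl] at this
    exact absurd this (by simp)
  constructor
  · intro a β
    simp only [letters]
    rw [h.v, mul_add, ← h.e1, Finset.mul_sum]
    simp only [mul_add]
    simp only [fun b => g_left (h.e1 (I.iy (a, b))) (.inl (I.iv a)) (.inl (I.iw b)) (by simp) α β
        (hl _ (by simp)),
      fun b => g_right (h.e1 (I.iy (a, b))) (.inl (I.iv a)) (.inl (I.iw b)) (by simp) α β,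
      Finset.sum_add_distrib]
    ring
  · intro b β
    simp only [letters]
    rw [h.w, mul_add, ← h.e1, Finset.mul_sum]
    simp only [fun a => g_mid (h.e1 (I.iy (a, b))) (.inl (I.iv a)) α β (hl _ (by simp)),
      Finset.sum_add_distrib]
    ring

lemma Good.vwv_bound {K : ℕ} (hK : 1 ≤ K) (hD : D = K ^ 4) {s : ℝ} (hs : 80 * (K : ℝ) ^ 3 ≤ s)
    {y : A} {U : Fin n → A ⊗[ℂ] A} (h : I.Good F s y U) (p : Fin D × Fin D) :
    (K : ℝ) ^ 3 * ‖F.cf [.inl (I.iv p.1), .inl (I.iw p.2), .inl (I.iv p.1)] y‖ ^ 2 ≤ F.nsq y := by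
  obtain ⟨N, hN⟩ := F.exists_deg h.1
  have hs0 : 0 ≤ s := le_trans (by positivity) hs
  have hb := I.letters.main_bound hK hD (r := Real.sqrt s) (by rwa [Real.sq_sqrt hs0])
    (x := fun w => F.cf w y) h.rel hN (B := F.nsq y)
    (fun σ => by simpa using I.sum_M_le F y {σ}) [true, true, true]
  refine le_trans ?_ hb
  have := le_ps I.isV [.inl (I.iv p.1), .inl (I.iw p.2), .inl (I.iv p.1)]
    (G := fun w => ‖F.cf w y‖ ^ 2) (fun _ => by positivity)
  simp only [List.map_cons, isV_iv, isV_iw, List.map_nil] at this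
  exact mul_le_mul (le_of_eq (by simp)) this (by positivity) (by positivity)

lemma five_M (I : Idx n D) (F : FockModel (Fin n ⊕ Fin n) A) (y : A) :
    I.letters.M (fun w => F.cf w y) [false] + (I.letters.M (fun w => F.cf w y) [true] +
      I.letters.M (fun w => F.cf w y) [true, true, false] +
      I.letters.M (fun w => F.cf w y) [false, true, true] +
      I.letters.M (fun w => F.cf w y) [true, false, true]) ≤ F.nsq y := by
  have := I.sum_M_le F y {[false], [true], [true, true, false], [false, true, true],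
    [true, false, true]}
  rw [Finset.sum_insert (by decide), Finset.sum_insert (by decide), Finset.sum_insert (by decide),
    Finset.sum_insert (by decide), Finset.sum_singleton] at this
  linarith

lemma Good.e1_sq {s : ℝ} (hs : 0 ≤ s) {y : A} {U : Fin n → A ⊗[ℂ] A} (h : I.Good F s y U)
    (i : Fin n) : ‖F.cf [.inr i] y‖ ^ 2 = s * ‖F.psi 1 1 [] [] (U i)‖ ^ 2 := by
  have := h.e1 i [] []
  rw [List.nil_append] at this
  rw [this, norm_mul, mul_pow, Complex.norm_real, Real.norm_eq_abs, sq_abs, Real.sq_sqrt hs]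

lemma Good.bound_v (hD : 1 ≤ D) {s : ℝ} (hs : 0 ≤ s) {y : A} {U : Fin n → A ⊗[ℂ] A}
    (h : I.Good F s y U) (a : Fin D) :
    (s + 1 / (5 * D)) * ‖F.psi 1 1 [] [] (U (I.iv a))‖ ^ 2 ≤ F.nsq y := by
  have hD1 : (1 : ℝ) ≤ D := by exact_mod_cast hD
  have h0 : ∀ w, 0 ≤ ‖F.cf w y‖ ^ 2 := fun _ => by positivity
  have he : ∀ p α β, F.cf (α ++ .inl (I.iy p) :: β) y = 1 * F.psi 1 1 α β (U (I.iy p)) := by
    intro p α β; rw [one_mul, h.e0]
  have h1 := h.v a [] []
  have h2 := fun b => g_left (he (a, b)) (.inl (I.iv a)) (.inl (I.iw b)) (by simp) [] [] (by simp)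
  have h3 := fun b => g_right (he (a, b)) (.inl (I.iv a)) (.inl (I.iw b)) (by simp) [] []
  simp only [one_mul, ann, add_zero, List.nil_append] at h2 h3
  simp only [h2, h3, List.nil_append, Finset.sum_add_distrib] at h1
  have h4 : F.psi 1 1 [] [] (U (I.iv a)) = F.cf [.inl (I.iv a)] y +
      (-∑ b, F.cf [.inl (I.iw b), .inl (I.iv a), .inl (I.iy (a, b))] y) +
      (-∑ b, F.cf [.inl (I.iy (a, b)), .inl (I.iv a), .inl (I.iw b)] y) + 0 + 0 := by
    rw [h1]; ring
  have h5 := norm_five (F.cf [.inl (I.iv a)] y)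
    (-∑ b, F.cf [.inl (I.iw b), .inl (I.iv a), .inl (I.iy (a, b))] y)
    (-∑ b, F.cf [.inl (I.iy (a, b)), .inl (I.iv a), .inl (I.iw b)] y) 0 0
  rw [← h4] at h5
  simp only [norm_neg, norm_zero] at h5
  have h6 := norm_sum_sq_le fun b => F.cf [.inl (I.iw b), .inl (I.iv a), .inl (I.iy (a, b))] y
  have h7 := norm_sum_sq_le fun b => F.cf [.inl (I.iy (a, b)), .inl (I.iv a), .inl (I.iw b)] y
  have m1 := le_ps I.isV [.inl (I.iv a)] h0
  have m2 := sum_le_ps I.isV (fun b => [.inl (I.iw b), .inl (I.iv a), .inl (I.iy (a, b))])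
    (fun b b' hb => by simpa using hb) [true, true, false] (by simp) h0
  have m3 := sum_le_ps I.isV (fun b => [.inl (I.iy (a, b)), .inl (I.iv a), .inl (I.iw b)])
    (fun b b' hb => by simpa using hb) [false, true, true] (by simp) h0
  have m4 := le_ps I.isV [.inr (I.iv a)] h0
  have m5 := I.five_M F y
  have m6 := I.letters.M_nonneg (fun w => F.cf w y) [true, false, true]
  have m7 := I.letters.M_nonneg (fun w => F.cf w y) [true]
  rw [h.e1_sq hs] at m4
  simp only [List.map_cons, isV_iv, isV_inr, List.map_nil] at m1 m4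
  simp only [Letters.M, letters] at m5 m6 m7
  have key : ‖F.psi 1 1 [] [] (U (I.iv a))‖ ^ 2 ≤ 5 * D * (ps I.isV [true] (fun w => ‖F.cf w y‖ ^ 2) +
      ps I.isV [true, true, false] (fun w => ‖F.cf w y‖ ^ 2) +
      ps I.isV [false, true, true] (fun w => ‖F.cf w y‖ ^ 2)) := by
    have a2 := mul_le_mul_of_nonneg_left m2 (by linarith : (0 : ℝ) ≤ D)
    have a3 := mul_le_mul_of_nonneg_left m3 (by linarith : (0 : ℝ) ≤ D)
    nlinarith
  have key2 : 1 / (5 * D) * ‖F.psi 1 1 [] [] (U (I.iv a))‖ ^ 2 ≤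
      ps I.isV [true] (fun w => ‖F.cf w y‖ ^ 2) +
      ps I.isV [true, true, false] (fun w => ‖F.cf w y‖ ^ 2) +
      ps I.isV [false, true, true] (fun w => ‖F.cf w y‖ ^ 2) := by
    rw [one_div, inv_mul_le_iff₀ (by positivity)]; exact key
  rw [add_mul]
  linarith

lemma Good.bound_w (hD : 1 ≤ D) {s : ℝ} (hs : 0 ≤ s) {y : A} {U : Fin n → A ⊗[ℂ] A}
    (h : I.Good F s y U) (b : Fin D) :
    (s + 1 / (5 * D)) * ‖F.psi 1 1 [] [] (U (I.iw b))‖ ^ 2 ≤ F.nsq y := by
  have hD1 : (1 : ℝ) ≤ D := by exact_mod_cast hD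
  have h0 : ∀ w, 0 ≤ ‖F.cf w y‖ ^ 2 := fun _ => by positivity
  have he : ∀ p α β, F.cf (α ++ .inl (I.iy p) :: β) y = 1 * F.psi 1 1 α β (U (I.iy p)) := by
    intro p α β; rw [one_mul, h.e0]
  have h1 := h.w b [] []
  have h2 := fun a => g_mid (he (a, b)) (.inl (I.iv a)) [] [] (by simp)
  simp only [one_mul, ann, add_zero, List.nil_append] at h2
  simp only [h2, List.nil_append] at h1
  have h4 : F.psi 1 1 [] [] (U (I.iw b)) = F.cf [.inl (I.iw b)] y +
      (-∑ a, F.cf [.inl (I.iv a), .inl (I.iy (a, b)), .inl (I.iv a)] y) + 0 + 0 + 0 := by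
    rw [h1]; ring
  have h5 := norm_five (F.cf [.inl (I.iw b)] y)
    (-∑ a, F.cf [.inl (I.iv a), .inl (I.iy (a, b)), .inl (I.iv a)] y) 0 0 0
  rw [← h4] at h5
  simp only [norm_neg, norm_zero] at h5
  have h6 := norm_sum_sq_le fun a => F.cf [.inl (I.iv a), .inl (I.iy (a, b)), .inl (I.iv a)] y
  have m1 := le_ps I.isV [.inl (I.iw b)] h0
  have m2 := sum_le_ps I.isV (fun a => [.inl (I.iv a), .inl (I.iy (a, b)), .inl (I.iv a)])
    (fun b b' hb => by simpa using hb) [true, false, true] (by simp) h0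
  have m4 := le_ps I.isV [.inr (I.iw b)] h0
  have m5 := I.five_M F y
  have m6 := I.letters.M_nonneg (fun w => F.cf w y) [true, true, false]
  have m6' := I.letters.M_nonneg (fun w => F.cf w y) [false, true, true]
  have m7 := I.letters.M_nonneg (fun w => F.cf w y) [true]
  rw [h.e1_sq hs] at m4
  simp only [List.map_cons, isV_iw, isV_inr, List.map_nil] at m1 m4
  simp only [Letters.M, letters] at m5 m6 m6' m7
  have key : ‖F.psi 1 1 [] [] (U (I.iw b))‖ ^ 2 ≤ 5 * D * (ps I.isV [true] (fun w => ‖F.cf w y‖ ^ 2) +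
      ps I.isV [true, false, true] (fun w => ‖F.cf w y‖ ^ 2)) := by
    have a2 := mul_le_mul_of_nonneg_left m2 (by linarith : (0 : ℝ) ≤ D)
    nlinarith
  have key2 : 1 / (5 * D) * ‖F.psi 1 1 [] [] (U (I.iw b))‖ ^ 2 ≤
      ps I.isV [true] (fun w => ‖F.cf w y‖ ^ 2) +
      ps I.isV [true, false, true] (fun w => ‖F.cf w y‖ ^ 2) := by
    rw [one_div, inv_mul_le_iff₀ (by positivity)]; exact key
  rw [add_mul]
  linarith

lemma Good.bound_y {s : ℝ} (hs : 0 ≤ s) {y : A} {U : Fin n → A ⊗[ℂ] A}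
    (h : I.Good F s y U) (p : Fin D × Fin D) :
    (1 + s) * ‖F.psi 1 1 [] [] (U (I.iy p))‖ ^ 2 ≤ F.nsq y := by
  have := F.bessel y {[.inl (I.iy p)], [.inr (I.iy p)]}
  rw [Finset.sum_pair (by simp), h.e1_sq hs] at this
  have h1 := h.e0 p [] []
  rw [List.nil_append] at h1
  rw [h1] at this
  unfold FockModel.nsq
  linarith

lemma cf_ZZ_iy_mul {s : ℝ} (hs : 0 ≤ s) {y : A} {U : Fin n → A ⊗[ℂ] A}
    (h : I.Good F s y U) (p : Fin D × Fin D) :
    F.cf [] (I.ZZ F s (I.iy p) * y) = F.cf [.inl (I.iv p.1), .inl (I.iw p.2), .inl (I.iv p.1)] y +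
      (1 + s) * F.psi 1 1 [] [] (U (I.iy p)) := by
  have h1 := h.e0 p [] []
  have h2 := h.e1 (I.iy p) [] []
  rw [List.nil_append] at h1 h2
  rw [ZZ_iy, add_mul, add_mul, map_add, map_add, smul_mul_assoc, map_smul, F.left_nil, F.left_nil,
    mul_assoc, mul_assoc, F.left_nil, F.left_cons, F.left_cons, if_neg (by simp), if_neg (by simp),
    h1, h2, smul_eq_mul, ← mul_assoc, ← Complex.ofReal_mul, Real.mul_self_sqrt hs]
  ring

lemma cf_ZZ_sq_iy {s : ℝ} (hs : 0 ≤ s) (p : Fin D × Fin D) :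
    F.cf [] (I.ZZ F s (I.iy p) * I.ZZ F s (I.iy p)) = 2 + s := by
  rw [cf_ZZ_iy_mul hs (I.good_ZZ F s (I.iy p)) p]
  have : F.cf [.inl (I.iv p.1), .inl (I.iw p.2), .inl (I.iv p.1)] (I.ZZ F s (I.iy p)) = 1 := by
    rw [ZZ_iy, map_add, map_add, map_smul, mul_assoc, F.left_cons, F.left_cons, F.left_cons]
    simp [F.cf_s]
  rw [this]
  simp [F.psi_tmul, F.cf_one]
  ring

lemma cf_ZZ_sq {s : ℝ} (hs : 0 ≤ s) (i : Fin n) :
    (F.cf [] (I.ZZ F s i * I.ZZ F s i)).re ≤ 2 + s := by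
  have hsq : (Real.sqrt s : ℂ) * (Real.sqrt s : ℂ) = s := by
    rw [← Complex.ofReal_mul, Real.mul_self_sqrt hs]
  rcases I.cases i with ⟨a, rfl⟩ | ⟨a, rfl⟩ | ⟨p, rfl⟩
  · rw [ZZ_iv]
    simp [add_mul, F.left_nil, F.cf_s, hsq, Real.mul_self_sqrt hs]
  · rw [ZZ_iw]
    simp [add_mul, F.left_nil, F.cf_s, hsq, Real.mul_self_sqrt hs]
  · rw [cf_ZZ_sq_iy hs]; simp

lemma Good.bound_y' {K : ℕ} (hK : 2 ≤ K) (hD : D = K ^ 4) {s : ℝ} (hs : 80 * (K : ℝ) ^ 3 ≤ s)
    {y : A} {U : Fin n → A ⊗[ℂ] A} (h : I.Good F s y U) (p : Fin D × Fin D) :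
    (s + 7 / 4) * ‖F.psi 1 1 [] [] (U (I.iy p))‖ ^ 2 ≤ F.nsq y := by
  have hs0 : 0 ≤ s := le_trans (by positivity) hs
  set g := F.psi 1 1 [] [] (U (I.iy p)) with hg
  set z := I.ZZ F s (I.iy p) with hz
  have h' := h.sub_smul (I.good_ZZ F s (I.iy p)) g
  rw [← hz] at h'
  set x := y - g • z with hx
  have hb := h'.vwv_bound (by omega) hD hs p
  have h1 := cf_ZZ_iy_mul hs0 h' p
  have h2 : F.psi 1 1 [] [] (U (I.iy p) - g • (if I.iy p = I.iy p then (1 : A) ⊗ₜ[ℂ] (1 : A) else 0))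
      = 0 := by
    rw [F.psi_one, map_sub, map_smul, ← F.psi_one, ← hg]
    simp [F.cf_one]
  rw [h2, mul_zero, add_zero, ← hz] at h1
  set u := F.cf [.inl (I.iv p.1), .inl (I.iw p.2), .inl (I.iv p.1)] x with hu
  have hzs : star z = z := I.ZZ_sa F s _
  have hy : y = x + g • z := by rw [hx]; abel
  have h3 : F.cf [] (star x * z) = conj u := by
    rw [← h1, ← F.cf_star, star_mul, hzs]
  have hzz : F.cf [] (z * z) = 2 + s := cf_ZZ_sq_iy hs0 p
  have h4 : F.nsq y = F.nsq x + 2 * (conj g * u).re + ‖g‖ ^ 2 * (2 + s) := by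
    unfold FockModel.nsq
    rw [hy, star_add, star_smul, hzs]
    simp only [add_mul, mul_add, map_add, smul_mul_assoc, mul_smul_comm, map_smul, h3, h1, hzz,
      smul_eq_mul, Complex.add_re]
    rw [← Complex.normSq_eq_norm_sq, Complex.normSq_apply]
    simp
    ring
  have hK8 : (8 : ℝ) ≤ (K : ℝ) ^ 3 := by
    have : (2 : ℝ) ≤ K := by exact_mod_cast hK
    calc (8 : ℝ) = 2 ^ 3 := by norm_num
      _ ≤ _ := by gcongr
  have h5 : 4 * ‖u‖ ^ 2 ≤ F.nsq x := by nlinarith [sq_nonneg ‖u‖]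
  have h6 : -(‖g‖ * ‖u‖) ≤ (conj g * u).re := by
    have := Complex.abs_re_le_norm (conj g * u)
    rw [norm_mul, Complex.norm_conj] at this
    exact (abs_le.mp this).1
  rw [h4]
  nlinarith [sq_nonneg (‖g‖ - 4 * ‖u‖)]

variable (I F)

lemma fisher_le {s : ℝ} (t : Fin n → ℝ) (ht : ∀ i, 0 < t i)
    (hb : ∀ (y : A) (U : Fin n → A ⊗[ℂ] A), I.Good F s y U → ∀ i,
      t i * ‖F.psi 1 1 [] [] (U i)‖ ^ 2 ≤ F.nsq y) :
    freeFisher (F.cf []) (I.ZZ F s) ≤ ENNReal.ofReal (∑ i, 1 / t i) := by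
  refine iSup₂_le fun P hP => ENNReal.ofReal_le_ofReal ?_
  rw [Complex.re_sum]
  refine Finset.sum_le_sum fun i _ => ?_
  have h1 := hb _ _ (I.good_poly F s (P i)) i
  have h2 := quad_bound (ht i) _ h1
  rw [F.psi_one, ← F.splitPairing_eq, FockModel.nsq, star_polyEval _ (I.ZZ_sa F s), hP i] at h2
  simpa using h2

lemma fisher_le_one (hD : 1 ≤ D) {s : ℝ} (hs : 0 ≤ s) :
    freeFisher (F.cf []) (I.ZZ F s) ≤
      ENNReal.ofReal (2 * D / (s + 1 / (5 * D)) + D ^ 2 / (1 + s)) := by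
  have hD1 : (1 : ℝ) ≤ D := by exact_mod_cast hD
  have := I.fisher_le F (s := s) (fun i => if (I.cc i).isSome then 1 + s else s + 1 / (5 * D))
    (fun i => by split_ifs <;> positivity) (by
      intro y U h i
      rcases I.cases i with ⟨a, rfl⟩ | ⟨a, rfl⟩ | ⟨p, rfl⟩
      · simpa using h.bound_v hD hs a
      · simpa using h.bound_w hD hs a
      · simpa using h.bound_y hs p)
  refine this.trans (le_of_eq ?_)
  congr 1
  rw [I.sum_eq]
  simp
  ring

lemma fisher_le_two {K : ℕ} (hK : 2 ≤ K) (hD : D = K ^ 4) {s : ℝ} (hs : 80 * (K : ℝ) ^ 3 ≤ s) :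
    freeFisher (F.cf []) (I.ZZ F s) ≤
      ENNReal.ofReal (2 * D / (s + 1 / (5 * D)) + D ^ 2 / (s + 7 / 4)) := by
  have hD' : 1 ≤ D := by rw [hD]; exact Nat.one_le_pow _ _ (by omega)
  have hD1 : (1 : ℝ) ≤ D := by exact_mod_cast hD'
  have hs0 : 0 ≤ s := le_trans (by positivity) hs
  have := I.fisher_le F (s := s) (fun i => if (I.cc i).isSome then s + 7 / 4 else s + 1 / (5 * D))
    (fun i => by split_ifs <;> positivity) (by
      intro y U h i
      rcases I.cases i with ⟨a, rfl⟩ | ⟨a, rfl⟩ | ⟨p, rfl⟩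
      · simpa using h.bound_v hD' hs0 a
      · simpa using h.bound_w hD' hs0 a
      · simpa using h.bound_y' hK hD hs p)
  refine this.trans (le_of_eq ?_)
  congr 1
  rw [I.sum_eq]
  simp
  ring

lemma fisher_ge {s : ℝ} (hs : 0 ≤ s) :
    ENNReal.ofReal (n / (2 + s)) ≤ freeFisher (F.cf []) (I.ZZ F s) := by
  set c : ℝ := 1 / (2 + s) with hc
  let P : Fin n → NCPoly n := fun i => MonoidAlgebra.single (FreeMonoid.of i) (c : ℂ)
  have hP : ∀ i, polyStar (P i) = P i := by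
    intro i
    simp only [P, polyStar]
    rw [MonoidAlgebra.coeff_single, Finsupp.sum_single_index (by simp)]
    simp
  refine le_trans (ENNReal.ofReal_le_ofReal ?_) (le_iSup₂_of_le (f := fun (P : Fin n → NCPoly n)
    (_ : ∀ i, polyStar (P i) = P i) => ENNReal.ofReal (∑ i, (2 * splitPairing (F.cf []) (I.ZZ F s) i (P i) -
      F.cf [] (polyEval (I.ZZ F s) (P i) * polyEval (I.ZZ F s) (P i)))).re) P hP le_rfl)
  rw [Complex.re_sum]
  have : (n : ℝ) / (2 + s) = ∑ _i : Fin n, c := by simp [hc, div_eq_mul_inv]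
  rw [this]
  refine Finset.sum_le_sum fun i _ => ?_
  have e1 : splitPairing (F.cf []) (I.ZZ F s) i (P i) = c := by
    simp only [P, splitPairing]
    rw [MonoidAlgebra.coeff_single, Finsupp.sum_single_index (by simp)]
    simp [wordEval, F.cf_one]
  have e2 : polyEval (I.ZZ F s) (P i) = (c : ℂ) • I.ZZ F s i := by
    simp [P, polyEval]
  rw [e1, e2, smul_mul_smul_comm, map_smul, smul_eq_mul, ← Complex.ofReal_mul]
  have h3 := cf_ZZ_sq (I := I) (F := F) hs i
  simp only [Complex.sub_re, Complex.re_ofReal_mul, Complex.mul_re, Complex.re_ofNat,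
    Complex.ofReal_re, Complex.im_ofNat, Complex.ofReal_im, mul_zero, sub_zero, zero_mul]
  have hc0 : 0 ≤ c := by positivity
  have hc1 : c * (2 + s) = 1 := by rw [hc]; field_simp
  nlinarith [mul_le_mul_of_nonneg_left h3 (mul_nonneg hc0 hc0)]

end Idx

end Crest.Agent.R089
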