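import Mathlib
import Crest.Prelude.Def_CStarRep
import Crest.Prelude.Def_FreeEntropy

set_option autoImplicit false
set_option linter.deprecated false

namespace Crest.Agent.R089

open Crest.OpAlg
open scoped InnerProductSpace ComplexConjugate ENNReal

/-- The interface of the full Fock space model of a free semicircular family. -/
structure FockModel (L : Type) [DecidableEq L] (A : Type) [CStarAlgebra A] where
  cf : List L → A →ₗ[ℂ] ℂ
  s : L → A
  sa : ∀ l, IsSelfAdjoint (s l)
  cf_one : ∀ w, cf w 1 = if w = [] then 1 else 0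
  left_nil : ∀ l a, cf [] (s l * a) = cf [l] a
  left_cons : ∀ l a x t, cf (x :: t) (s l * a) = cf (l :: x :: t) a + if x = l then cf t a else 0
  right_nil : ∀ l a, cf [] (a * s l) = cf [l] a
  right_snoc : ∀ l a x t,
    cf (t ++ [x]) (a * s l) = cf (t ++ [x, l]) a + if x = l then cf t a else 0
  faithful : IsFaithfulTracialState (cf [])
  bessel : ∀ a (T : Finset (List L)), ∑ w ∈ T, ‖cf w a‖ ^ 2 ≤ (cf [] (star a * a)).re
  cont : Continuous (cf [])
  cf_star : ∀ a, cf [] (star a) = conj (cf [] a)

section construction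

variable {L : Type} [DecidableEq L]

abbrev FH (L : Type) : Type := lp (fun _ : List L => ℂ) 2

omit [DecidableEq L] in
lemma fk_summable (ψ : FH L) : Summable fun w => ‖ψ w‖ ^ (2 : ℝ≥0∞).toReal :=
  (lp.memℓp ψ).summable (by norm_num)

/-- Composition with an injective map of words. -/
noncomputable def compL (f : List L → List L) (hf : Function.Injective f) : FH L →L[ℂ] FH L :=
  LinearMap.mkContinuous
    { toFun := fun ψ => ⟨fun w => ψ (f w), memℓp_gen ((fk_summable ψ).comp_injective hf)⟩
      map_add' := fun _ _ => rfl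
      map_smul' := fun _ _ => rfl } 1 (by
        intro ψ
        rw [one_mul]
        refine lp.norm_le_of_tsum_le (by norm_num) (norm_nonneg _) ?_
        rw [lp.norm_rpow_eq_tsum (by norm_num) ψ]
        exact tsum_comp_le_tsum_of_inj (fk_summable ψ) (fun _ => by positivity) hf)

omit [DecidableEq L] in
@[simp] lemma compL_apply (f : List L → List L) (hf : Function.Injective f) (ψ : FH L) (w : List L) :
    compL f hf ψ w = ψ (f w) := rfl

/-- basis vector -/
noncomputable def dl (w : List L) : FH L := lp.single 2 w (1 : ℂ)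

lemma dl_apply (w u : List L) : dl w u = if u = w then 1 else 0 := by
  unfold dl
  by_cases h : u = w
  · subst h; simp [lp.single_apply_self]
  · rw [lp.single_apply_ne _ _ _ h]; simp [h]

lemma inner_dl (w : List L) (ψ : FH L) : ⟪dl w, ψ⟫_ℂ = ψ w := by
  unfold dl
  rw [lp.inner_single_left]; simp

lemma adj_compL_range (f : List L → List L) (hf : Function.Injective f) (ψ : FH L) (u : List L) :
    ContinuousLinearMap.adjoint (compL f hf) ψ (f u) = ψ u := by
  rw [← inner_dl, ContinuousLinearMap.adjoint_inner_right, ← inner_dl]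
  congr 1
  ext w
  simp [dl_apply, hf.eq_iff]

lemma adj_compL_not (f : List L → List L) (hf : Function.Injective f) (ψ : FH L) (w : List L)
    (hw : ∀ u, f u ≠ w) : ContinuousLinearMap.adjoint (compL f hf) ψ w = 0 := by
  rw [← inner_dl, ContinuousLinearMap.adjoint_inner_right]
  have : compL f hf (dl w) = 0 := by
    ext u
    simp [dl_apply, hw u]
  rw [this, inner_zero_left]

/-- field operator -/
noncomputable def fld (f : List L → List L) (hf : Function.Injective f) : FH L →L[ℂ] FH L :=
  compL f hf + ContinuousLinearMap.adjoint (compL f hf)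

omit [DecidableEq L] in
lemma fld_sa (f : List L → List L) (hf : Function.Injective f) : IsSelfAdjoint (fld f hf) := by
  unfold fld
  rw [IsSelfAdjoint, star_add, ContinuousLinearMap.star_eq_adjoint,
    ContinuousLinearMap.star_eq_adjoint, ContinuousLinearMap.adjoint_adjoint, add_comm]

noncomputable def sL (l : L) : FH L →L[ℂ] FH L := fld (fun w => l :: w) (List.cons_injective)

noncomputable def sR (l : L) : FH L →L[ℂ] FH L :=
  fld (fun w => w ++ [l]) (List.append_left_injective [l])

lemma sL_nil (l : L) (ψ : FH L) : sL l ψ [] = ψ [l] := by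
  unfold sL fld
  rw [ContinuousLinearMap.add_apply, lp.coeFn_add, Pi.add_apply, adj_compL_not _ _ _ _ (by simp)]
  simp

lemma sL_cons (l x : L) (t : List L) (ψ : FH L) :
    sL l ψ (x :: t) = ψ (l :: x :: t) + if x = l then ψ t else 0 := by
  unfold sL fld
  rw [ContinuousLinearMap.add_apply, lp.coeFn_add, Pi.add_apply]
  congr 1
  split_ifs with h
  · subst h
    exact adj_compL_range (fun w => x :: w) _ ψ t
  · exact adj_compL_not _ _ _ _ (by intro u hu; simp at hu; exact h hu.1.symm)

lemma sR_nil (l : L) (ψ : FH L) : sR l ψ [] = ψ [l] := by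
  unfold sR fld
  rw [ContinuousLinearMap.add_apply, lp.coeFn_add, Pi.add_apply, adj_compL_not _ _ _ _ (by simp)]
  simp

lemma sR_snoc (l x : L) (t : List L) (ψ : FH L) :
    sR l ψ (t ++ [x]) = ψ (t ++ [x, l]) + if x = l then ψ t else 0 := by
  unfold sR fld
  rw [ContinuousLinearMap.add_apply, lp.coeFn_add, Pi.add_apply]
  congr 1
  · simp
  split_ifs with h
  · subst h
    exact adj_compL_range (fun w => w ++ [x]) _ ψ t
  · refine adj_compL_not _ _ _ _ ?_
    intro u hu
    have := List.append_inj_right' hu rfl
    simp at this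
    exact h this.symm

lemma sL_sR_comm (l m : L) : sL l * sR m = sR m * sL l := by
  ext ψ w
  simp only [ContinuousLinearMap.mul_apply]
  rcases w with _ | ⟨x, t⟩
  · rw [sL_nil, sR_nil]
    have h1 := sR_snoc m l [] ψ
    have h2 := sL_cons l m [] ψ
    simp only [List.nil_append] at h1
    rw [h1, h2]
    simp only [eq_comm]
  · rw [sL_cons]
    induction t using List.reverseRecOn with
    | nil =>
      have h1 := sR_snoc m x [l] ψ
      have h2 := sR_snoc m x [] (sL l ψ)
      simp only [List.nil_append, List.cons_append] at h1 h2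
      rw [h1, h2, sR_nil, sL_cons, sL_nil]
      ring
    | append_singleton u y _ =>
      have h1 := sR_snoc m y (l :: x :: u) ψ
      have h2 := sR_snoc m y (x :: u) (sL l ψ)
      simp only [List.cons_append] at h1 h2
      rw [h1, h2, sR_snoc, sL_cons, sL_cons]
      split_ifs <;> ring

/-- vacuum expectation -/
noncomputable def vac (w : List L) : (FH L →L[ℂ] FH L) →ₗ[ℂ] ℂ where
  toFun a := a (dl []) w
  map_add' _ _ := rfl
  map_smul' _ _ := rfl

lemma vac_apply (w : List L) (a : FH L →L[ℂ] FH L) : vac w a = a (dl []) w := rfl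

lemma vac_cont (w : List L) : Continuous (vac (L := L) w) := by
  have : (vac (L := L) w : (FH L →L[ℂ] FH L) → ℂ) = fun a => ⟪dl w, a (dl [])⟫_ℂ := by
    ext a; rw [inner_dl]; rfl
  rw [this]
  fun_prop

lemma vac_star_mul (a b : FH L →L[ℂ] FH L) :
    vac [] (star a * b) = ⟪a (dl []), b (dl [])⟫_ℂ := by
  rw [vac_apply, ← inner_dl, ContinuousLinearMap.mul_apply, ContinuousLinearMap.star_eq_adjoint,
    ContinuousLinearMap.adjoint_inner_right]

lemma vac_star (a : FH L →L[ℂ] FH L) : vac [] (star a) = conj (vac [] a) := by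
  have := vac_star_mul a 1
  rw [mul_one] at this
  rw [this, vac_apply, ← inner_dl, inner_conj_symm]
  rfl

lemma sL_vac (l : L) : sL l (dl []) = sR l (dl []) := by
  ext w
  rcases w with _ | ⟨x, t⟩
  · rw [sL_nil, sR_nil]
  · rw [sL_cons]
    induction t using List.reverseRecOn with
    | nil =>
      have h1 := sR_snoc l x [] (dl [])
      simp only [List.nil_append] at h1
      rw [h1]; simp [dl_apply]
    | append_singleton u y _ =>
      have h1 := sR_snoc l y (x :: u) (dl [])
      simp only [List.cons_append] at h1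
      rw [h1]; simp [dl_apply]

/-- commutes with all right fields -/
def CommR (a : FH L →L[ℂ] FH L) : Prop := ∀ m : L, a * sR m = sR m * a

omit [DecidableEq L] in
lemma CommR.mul {a b : FH L →L[ℂ] FH L} (ha : CommR a) (hb : CommR b) : CommR (a * b) := by
  intro m; rw [mul_assoc, hb m, ← mul_assoc, ha m, mul_assoc]

omit [DecidableEq L] in
lemma CommR.star {a : FH L →L[ℂ] FH L} (ha : CommR a) : CommR (star a) := by
  intro m
  have h := congrArg Star.star (ha m)
  have hs : Star.star (sR m) = sR m := fld_sa _ _
  rw [star_mul, star_mul, hs] at h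
  exact h.symm

/-- The tracial algebra. -/
noncomputable def fockAlg (L : Type) [DecidableEq L] : StarSubalgebra ℂ (FH L →L[ℂ] FH L) where
  carrier := {b | CommR b ∧ ∀ a, CommR a → vac [] (a * b) = vac [] (b * a)}
  mul_mem' := by
    rintro b b' ⟨hb, hb2⟩ ⟨hb', hb2'⟩
    refine ⟨hb.mul hb', fun a ha => ?_⟩
    rw [← mul_assoc, hb2' _ (ha.mul hb), ← mul_assoc, hb2 _ (hb'.mul ha), mul_assoc]
  add_mem' := by
    rintro b b' ⟨hb, hb2⟩ ⟨hb', hb2'⟩
    refine ⟨fun m => by rw [add_mul, mul_add, hb m, hb' m], fun a ha => ?_⟩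
    rw [mul_add, add_mul, map_add, map_add, hb2 a ha, hb2' a ha]
  algebraMap_mem' := by
    intro r
    refine ⟨fun m => Algebra.commutes r _, fun a _ => ?_⟩
    rw [Algebra.commutes]
  star_mem' := by
    rintro b ⟨hb, hb2⟩
    refine ⟨hb.star, fun a ha => ?_⟩
    have h := congrArg conj (hb2 _ ha.star)
    rw [← vac_star, ← vac_star, star_mul, star_mul, star_star] at h
    exact h.symm

instance fockAlg_closed : IsClosed (fockAlg L : Set (FH L →L[ℂ] FH L)) := by
  have h1 : (fockAlg L : Set (FH L →L[ℂ] FH L)) =
      (⋂ m : L, {b | b * sR m = sR m * b}) ∩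
        ⋂ a : {a : FH L →L[ℂ] FH L // CommR a}, {b | vac [] (a.1 * b) = vac [] (b * a.1)} := by
    ext b
    simp only [Set.mem_inter_iff, Set.mem_iInter, Set.mem_setOf_eq, Subtype.forall]
    rfl
  rw [h1]
  refine IsClosed.inter (isClosed_iInter fun m => isClosed_eq (by fun_prop) (by fun_prop))
    (isClosed_iInter fun a => isClosed_eq ?_ ?_)
  · exact (vac_cont []).comp (by fun_prop)
  · exact (vac_cont []).comp (by fun_prop)

lemma right_mul_vac {a : FH L →L[ℂ] FH L} (ha : CommR a) (l : L) :
    (a * sL l) (dl []) = sR l (a (dl [])) := by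
  rw [ContinuousLinearMap.mul_apply, sL_vac, ← ContinuousLinearMap.mul_apply, ha l]
  rfl

lemma sL_mem (l : L) : sL l ∈ fockAlg L := by
  refine ⟨fun m => sL_sR_comm l m, fun a ha => ?_⟩
  rw [vac_apply, vac_apply, right_mul_vac ha, sR_nil, ContinuousLinearMap.mul_apply, sL_nil]

lemma sR_dl (l : L) (w : List L) :
    ∃ φ : FH L, dl (w ++ [l]) = sR l (dl w) - φ ∧ (φ = 0 ∨ ∃ u, w = u ++ [l] ∧ φ = dl u) := by
  have key : ∀ φ : FH L, (φ [] = if [l] = w then 1 else 0) →
      (∀ t x, φ (t ++ [x]) = if t ++ [x, l] = w then 1 else 0) →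
      dl (w ++ [l]) = sR l (dl w) - φ := by
    intro φ h0 h1
    ext v
    rw [lp.coeFn_sub, Pi.sub_apply]
    induction v using List.reverseRecOn with
    | nil => rw [sR_nil, h0]; simp [dl_apply]
    | append_singleton t x _ =>
      rw [sR_snoc, h1, dl_apply, dl_apply, dl_apply]
      by_cases hx : x = l
      · subst hx; simp
      · have : ¬ (t ++ [x] = w ++ [l]) := by
          intro h
          have := List.append_inj_right' h rfl
          simp at this; exact hx this
        simp [hx, this]
  by_cases h : ∃ u, w = u ++ [l]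
  · obtain ⟨u, rfl⟩ := h
    refine ⟨dl u, key _ ?_ ?_, Or.inr ⟨u, rfl, rfl⟩⟩
    · rw [dl_apply]
      congr 1
      apply propext
      constructor
      · rintro rfl; rfl
      · intro h
        have : [] ++ [l] = u ++ [l] := h
        exact List.append_cancel_right this
    · intro t x
      rw [dl_apply]
      congr 1
      apply propext
      constructor
      · rintro rfl; simp
      · intro h
        have : (t ++ [x]) ++ [l] = u ++ [l] := by simpa using h
        exact List.append_cancel_right this
  · refine ⟨0, key _ ?_ ?_, Or.inl rfl⟩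
    · have : ¬ [l] = w := fun h' => h ⟨[], by simp [h']⟩
      simp [this]
    · intro t x
      have : ¬ t ++ [x, l] = w := fun h' => h ⟨t ++ [x], by simp [← h']⟩
      simp [this]

lemma eq_zero_of_vac {a : FH L →L[ℂ] FH L} (ha : CommR a) (h0 : a (dl []) = 0) : a = 0 := by
  have key : ∀ N : ℕ, ∀ w : List L, w.length ≤ N → a (dl w) = 0 := by
    intro N
    induction N with
    | zero =>
      intro w hw
      have : w = [] := List.length_eq_zero_iff.mp (by omega)
      rw [this, h0]
    | succ N ih =>
      intro w hw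
      induction w using List.reverseRecOn with
      | nil => exact h0
      | append_singleton t x _ =>
        obtain ⟨φ, h1, h2⟩ := sR_dl x t
        have ht : t.length ≤ N := by simp at hw; omega
        rw [h1, map_sub, ← ContinuousLinearMap.mul_apply, ha x, ContinuousLinearMap.mul_apply,
          ih t ht, map_zero, zero_sub, neg_eq_zero]
        rcases h2 with rfl | ⟨u, rfl, rfl⟩
        · simp
        · exact ih u (by simp at ht; omega)
  refine lp.ext_continuousLinearMap (by simp) fun w => ?_
  ext1
  have := key _ w le_rfl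
  simpa [dl] using this

noncomputable def fockModel (L : Type) [DecidableEq L] : FockModel L (fockAlg L) where
  cf w := (vac w).comp (fockAlg L).toSubalgebra.toSubmodule.subtype
  s l := ⟨sL l, sL_mem l⟩
  sa l := Subtype.ext (fld_sa _ _)
  cf_one w := dl_apply [] w
  left_nil l a := sL_nil l _
  left_cons l a x t := sL_cons l x t _
  right_nil l a := by
    change (a.1 * sL l) (dl []) [] = a.1 (dl []) [l]
    rw [right_mul_vac a.2.1, sR_nil]
  right_snoc l a x t := by
    change (a.1 * sL l) (dl []) (t ++ [x]) = a.1 (dl []) (t ++ [x, l]) +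
      if x = l then a.1 (dl []) t else 0
    rw [right_mul_vac a.2.1, sR_snoc]
  faithful := by
    refine ⟨?_, fun a => ?_, fun a ha => ?_, fun a b => ?_⟩
    · change dl ([] : List L) [] = 1
      simp [dl_apply]
    · change (vac [] (star a.1 * a.1)).im = 0 ∧ 0 ≤ (vac [] (star a.1 * a.1)).re
      rw [vac_star_mul, inner_self_eq_norm_sq_to_K]
      constructor
      · norm_cast
      · norm_cast; exact sq_nonneg _
    · change vac [] (star a.1 * a.1) = 0 at ha
      rw [vac_star_mul, inner_self_eq_zero] at ha
      exact Subtype.ext (eq_zero_of_vac a.2.1 ha)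
    · exact b.2.2 a.1 a.2.1
  bessel a T := by
    change ∑ w ∈ T, ‖a.1 (dl []) w‖ ^ 2 ≤ (vac [] (star a.1 * a.1)).re
    rw [vac_star_mul, inner_self_eq_norm_sq_to_K]
    have := lp.sum_rpow_le_norm_rpow (p := 2) (by norm_num) (a.1 (dl [])) T
    simp only [ENNReal.toReal_ofNat, Real.rpow_ofNat] at this
    convert this using 1
    norm_cast
  cont := (vac_cont []).comp continuous_subtype_val
  cf_star a := vac_star a.1

theorem exists_fock (L : Type) [DecidableEq L] :
    ∃ (A : Type) (_ : CStarAlgebra A), Nonempty (FockModel L A) :=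
  ⟨fockAlg L, inferInstance, ⟨fockModel L⟩⟩

end construction

end Crest.Agent.R089
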