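import Crest.Agent.R089.Alg

set_option autoImplicit false
set_option linter.deprecated false

namespace Crest.Agent.R089

open Crest.OpAlg
open scoped ComplexConjugate TensorProduct

lemma polyEval_mem {B : Type*} [Ring B] [Algebra ℂ B] {n : ℕ} (S : Subalgebra ℂ B)
    (Z : Fin n → B) (hZ : ∀ i, Z i ∈ S) (P : NCPoly n) : polyEval Z P ∈ S := by
  rw [polyEval_eq]
  refine Subalgebra.sum_mem _ fun w _ => Subalgebra.smul_mem _ ?_ _
  induction FreeMonoid.toList w with
  | nil => rw [wd_nil]; exact S.one_mem
  | cons x t ih => rw [wd_cons]; exact S.mul_mem (hZ x) ih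

namespace FockModel

variable {L : Type} [DecidableEq L] {A : Type} [CStarAlgebra A] (F : FockModel L A)

section free
variable {ι : Type*} (cls : L → ι)

def Loc (t : ι) (a : A) : Prop :=
  ∀ y : A, (∀ x w, cls x = t → F.cf (x :: w) y = 0) → ∀ u w : List L, (∀ x ∈ u, cls x = t) →
    (∀ x ∈ w.head?, cls x ≠ t) → F.cf (u ++ w) (a * y) = F.cf u a * F.cf w y

lemma loc_one (t : ι) : F.Loc cls t 1 := by
  intro y hy u w hu hw
  rcases u with _ | ⟨x, u⟩
  · simp [F.cf_one]
  · rw [one_mul, List.cons_append, hy x _ (hu x (by simp))]; simp [F.cf_one]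

/-- elements whose left multiplication preserves `Loc` -/
def locAlg (t : ι) : Subalgebra ℂ A where
  carrier := {a | ∀ b, F.Loc cls t b → F.Loc cls t (a * b)}
  mul_mem' := by
    intro a a' ha ha' b hb
    rw [mul_assoc]; exact ha _ (ha' b hb)
  add_mem' := by
    intro a a' ha ha' b hb y hy u w hu hw
    rw [add_mul, add_mul, map_add, map_add, ha b hb y hy u w hu hw, ha' b hb y hy u w hu hw, add_mul]
  algebraMap_mem' := by
    intro r b hb y hy u w hu hw
    rw [← Algebra.smul_def, smul_mul_assoc, map_smul, map_smul, hb y hy u w hu hw, smul_mul_assoc]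

lemma s_mem_locAlg (t : ι) (l : L) (hl : cls l = t) : F.s l ∈ F.locAlg cls t := by
  intro b hb y hy u w hu hw
  rw [mul_assoc]
  rcases u with _ | ⟨x, u⟩
  · rw [List.nil_append, F.left_nil]
    have h1 := hb y hy [l] w (by simpa using hl) hw
    rcases w with _ | ⟨z, w⟩
    · rw [F.left_nil]; simpa using h1
    · rw [F.left_cons, if_neg, add_zero]
      · simpa using h1
      · rintro rfl
        exact hw z (by simp) hl
  · rw [List.cons_append, F.left_cons, F.left_cons]
    have h1 := hb y hy (l :: x :: u) w (by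
      intro z hz
      rcases List.mem_cons.mp hz with rfl | hz
      · exact hl
      · exact hu z hz) hw
    have h2 := hb y hy u w (fun z hz => hu z (List.mem_cons_of_mem _ hz)) hw
    simp only [List.cons_append] at h1
    rw [h1, h2]
    split_ifs <;> ring

lemma isFreeFamily {n : ℕ} (gens : ι → Fin n → A) (hg : ∀ t i, gens t i ∈ F.locAlg cls t) :
    IsFreeFamily (F.cf []) gens := by
  have key : ∀ (l : List (ι × NCPoly n)) (e : ι × NCPoly n),
      (e :: l).IsChain (fun a b => a.1 ≠ b.1) →
      (∀ e' ∈ e :: l, F.cf [] (polyEval (gens e'.1) e'.2) = 0) →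
      ∀ w : List L, (∀ x ∈ w.head?, cls x ≠ e.1) →
        F.cf w ((e :: l).map fun e => polyEval (gens e.1) e.2).prod = 0 := by
    intro l
    induction l with
    | nil =>
      intro e _ h0 w hw
      have hloc := polyEval_mem _ _ (hg e.1) e.2 1 (F.loc_one cls e.1)
      rw [mul_one] at hloc
      have := hloc 1 (by intro x w _; simp [F.cf_one]) [] w (by simp) hw
      rw [h0 e (by simp)] at this
      simpa using this
    | cons e' l ih =>
      intro e hch h0 w hw
      have hloc := polyEval_mem _ _ (hg e.1) e.2 1 (F.loc_one cls e.1)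
      rw [mul_one] at hloc
      rw [List.isChain_cons_cons] at hch
      have hy := ih e' hch.2 (fun e'' he => h0 e'' (List.mem_cons_of_mem _ he))
      have := hloc _ (by
        intro x w hx
        exact hy (x :: w) (by
          intro z hz
          simp only [List.head?_cons, Option.mem_def, Option.some.injEq] at hz
          subst hz
          rw [hx]; exact hch.1)) [] w (by simp) hw
      rw [h0 e (by simp), zero_mul, List.nil_append] at this
      rw [List.map_cons, List.prod_cons]
      exact this
  intro l hl hch h0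
  rcases l with _ | ⟨e, l⟩
  · exact absurd rfl hl
  · exact key l e hch h0 [] (by simp)

end free

/-- elements raising the degree by a bounded amount -/
def degAlg : Subalgebra ℂ A where
  carrier := {a | ∃ k : ℕ, ∀ (y : A) (N : ℕ), (∀ w : List L, N < w.length → F.cf w y = 0) →
    ∀ w : List L, N + k < w.length → F.cf w (a * y) = 0}
  mul_mem' := by
    rintro a a' ⟨k, ha⟩ ⟨k', ha'⟩
    refine ⟨k' + k, fun y N hy w hw => ?_⟩
    rw [mul_assoc]
    exact ha _ (N + k') (ha' y N hy) w (by omega)
  add_mem' := by
    rintro a a' ⟨k, ha⟩ ⟨k', ha'⟩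
    refine ⟨k' + k, fun y N hy w hw => ?_⟩
    rw [add_mul, map_add, ha y N hy w (by omega), ha' y N hy w (by omega), add_zero]
  algebraMap_mem' := by
    intro r
    refine ⟨0, fun y N hy w hw => ?_⟩
    rw [← Algebra.smul_def, map_smul, hy w (by omega), smul_zero]

lemma s_mem_degAlg (l : L) : F.s l ∈ F.degAlg := by
  refine ⟨1, fun y N hy w hw => ?_⟩
  rcases w with _ | ⟨x, t⟩
  · simp at hw
  · simp only [List.length_cons] at hw
    rw [F.left_cons, hy _ (by simp; omega), hy t (by omega)]; simp

lemma exists_deg {a : A} (ha : a ∈ F.degAlg) : ∃ N : ℕ, ∀ w : List L, N < w.length → F.cf w a = 0 := by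
  obtain ⟨k, hk⟩ := ha
  refine ⟨k, fun w hw => ?_⟩
  have := hk 1 0 (by
    intro w hw
    rw [F.cf_one, if_neg]
    rintro rfl; simp at hw) w (by omega)
  rwa [mul_one] at this

end FockModel

end Crest.Agent.R089
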