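import Crest.Agent.R089.Fisher

set_option autoImplicit false
set_option linter.deprecated false

namespace Crest.Agent.R089

open Crest.OpAlg MeasureTheory Filter Topology Set
open scoped ENNReal

section meas
variable {A : Type} [CStarAlgebra A] {n : ℕ}

lemma continuous_wd (Z : ℝ → Fin n → A) (hZ : ∀ i, Continuous fun s => Z s i) (w : List (Fin n)) :
    Continuous fun s => wd (Z s) w := by
  induction w with
  | nil => simpa using continuous_const
  | cons x t ih => simp only [wd_cons]; exact (hZ x).mul ih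

lemma measurable_freeFisher (τ : A →ₗ[ℂ] ℂ) (hτ : Continuous τ) (Z : ℝ → Fin n → A)
    (hZ : ∀ i, Continuous fun s => Z s i) : Measurable fun s => freeFisher τ (Z s) := by
  refine LowerSemicontinuous.measurable ?_
  unfold freeFisher
  refine lowerSemicontinuous_iSup fun P => lowerSemicontinuous_iSup fun _ =>
    Continuous.lowerSemicontinuous ?_
  refine ENNReal.continuous_ofReal.comp (Complex.continuous_re.comp
    (continuous_finset_sum _ fun i _ => ?_))
  have hp : Continuous fun s => polyEval (Z s) (P i) := by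
    simp only [polyEval_eq, Finsupp.sum]
    exact continuous_finset_sum _ fun w _ => (continuous_wd Z hZ _).const_smul _
  refine Continuous.sub (continuous_const.mul ?_) (hτ.comp (hp.mul hp))
  unfold splitPairing
  simp only [Finsupp.sum]
  refine continuous_finset_sum _ fun w _ => continuous_const.mul
    (continuous_finset_sum _ fun k _ => ?_)
  split_ifs
  · exact (hτ.comp (continuous_wd Z hZ _)).mul (hτ.comp (continuous_wd Z hZ _))
  · exact continuous_const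

end meas

lemma int_log {δ : ℝ} (h0 : 0 < δ) (h1 : δ ≤ 1) :
    IntegrableOn (fun s : ℝ => 1 / (s + δ) - 1 / (1 + s)) (Ioi 0) ∧
      ∫ s in Ioi (0 : ℝ), (1 / (s + δ) - 1 / (1 + s)) = -Real.log δ := by
  have hd : ∀ x ∈ Ici (0 : ℝ), HasDerivAt (fun s : ℝ => Real.log (s + δ) - Real.log (1 + s))
      (1 / (x + δ) - 1 / (1 + x)) x := by
    intro x hx
    have hx : 0 ≤ x := hx
    exact (((hasDerivAt_id x).add_const δ).log (by simp; positivity)).sub
      (((hasDerivAt_id x).const_add 1).log (by simp; positivity))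
  have hnn : ∀ x ∈ Ioi (0 : ℝ), 0 ≤ 1 / (x + δ) - 1 / (1 + x) := by
    intro x hx
    have hx : 0 < x := hx
    rw [sub_nonneg]
    exact one_div_le_one_div_of_le (by positivity) (by linarith)
  have ht : Tendsto (fun s : ℝ => Real.log (s + δ) - Real.log (1 + s)) atTop (𝓝 0) := by
    have a1 : Tendsto (fun s : ℝ => 1 - (1 - δ) * (1 + s)⁻¹) atTop (𝓝 (1 - (1 - δ) * 0)) :=
      tendsto_const_nhds.sub (tendsto_const_nhds.mul
        (tendsto_inv_atTop_zero.comp (tendsto_atTop_add_const_left _ _ tendsto_id)))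
    rw [mul_zero, sub_zero] at a1
    have a2 := a1.log one_ne_zero
    rw [Real.log_one] at a2
    refine a2.congr' ?_
    filter_upwards [eventually_gt_atTop 0] with s hs
    rw [← Real.log_div (by positivity) (by positivity)]
    congr 1
    field_simp
    ring
  refine ⟨integrableOn_Ioi_deriv_of_nonneg' hd hnn ht, ?_⟩
  rw [integral_Ioi_of_hasDerivAt_of_nonneg' hd hnn ht]
  simp

lemma int_sq {c : ℝ} (h0 : 0 ≤ c) :
    IntegrableOn (fun s : ℝ => 1 / (s + 2) ^ 2) (Ioi c) ∧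
      ∫ s in Ioi c, 1 / (s + 2) ^ 2 = 1 / (c + 2) := by
  have hd : ∀ x ∈ Ici c, HasDerivAt (fun s : ℝ => -(s + 2)⁻¹) (1 / (x + 2) ^ 2) x := by
    intro x hx
    have hx : c ≤ x := hx
    have := (((hasDerivAt_id x).add_const 2).inv (by simp; linarith)).neg
    have e : 1 / (x + 2) ^ 2 = -(-1 / (id x + 2) ^ 2) := by simp only [id]; ring
    rw [e]
    exact this
  have hnn : ∀ x ∈ Ioi c, 0 ≤ 1 / (x + 2) ^ 2 := fun x _ => by positivity
  have ht : Tendsto (fun s : ℝ => -(s + 2)⁻¹) atTop (𝓝 (-0)) :=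
    (tendsto_inv_atTop_zero.comp (tendsto_atTop_add_const_right _ _ tendsto_id)).neg
  refine ⟨integrableOn_Ioi_deriv_of_nonneg' hd hnn ht, ?_⟩
  rw [integral_Ioi_of_hasDerivAt_of_nonneg' hd hnn ht]
  simp

lemma integral_analysis (Φ : ℝ → ℝ≥0∞) (hΦ : Measurable Φ) {D c N : ℝ} (hD : 1 ≤ D) (hc : 0 ≤ c)
    (hN : N = 2 * D + D ^ 2)
    (h1 : ∀ s, 0 ≤ s → Φ s ≤ ENNReal.ofReal (2 * D / (s + 1 / (5 * D)) + D ^ 2 / (1 + s)))
    (h2 : ∀ s, c ≤ s → Φ s ≤ ENNReal.ofReal (2 * D / (s + 1 / (5 * D)) + D ^ 2 / (s + 7 / 4)))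
    (h3 : ∀ s, 0 ≤ s → ENNReal.ofReal (N / (2 + s)) ≤ Φ s) :
    IntegrableOn (fun s : ℝ => N / (1 + s) - (Φ s).toReal) (Ioi 0) ∧
      -2 * D * Real.log (5 * D) + 3 / 4 * D ^ 2 / (c + 2) ≤
        ∫ s in Ioi (0 : ℝ), (N / (1 + s) - (Φ s).toReal) := by
  have hδ0 : 0 < 1 / (5 * D) := by positivity
  have hδ1 : 1 / (5 * D) ≤ 1 := by rw [div_le_one (by positivity)]; linarith
  set δ := 1 / (5 * D) with hδ
  obtain ⟨i1, v1⟩ := int_log hδ0 hδ1
  obtain ⟨i2, -⟩ := int_sq (le_refl (0 : ℝ))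
  obtain ⟨i3, v3⟩ := int_sq hc
  have hN0 : 0 ≤ N := by rw [hN]; positivity
  have b1 : ∀ s, 0 ≤ s → (Φ s).toReal ≤ 2 * D / (s + δ) + D ^ 2 / (1 + s) := fun s hs =>
    ENNReal.toReal_le_of_le_ofReal (by positivity) (h1 s hs)
  have b2 : ∀ s, c ≤ s → (Φ s).toReal ≤ 2 * D / (s + δ) + D ^ 2 / (s + 7 / 4) := fun s hs =>
    have : 0 ≤ s := hc.trans hs
    ENNReal.toReal_le_of_le_ofReal (by positivity) (h2 s hs)
  have b3 : ∀ s, 0 ≤ s → N / (2 + s) ≤ (Φ s).toReal := fun s hs =>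
    (ENNReal.ofReal_le_iff_le_toReal (ne_top_of_le_ne_top ENNReal.ofReal_ne_top (h1 s hs))).mp
      (h3 s hs)
  have hk : ∀ s : ℝ, 0 ≤ s → 0 ≤ 1 / (s + δ) - 1 / (1 + s) := by
    intro s hs
    rw [sub_nonneg]
    exact one_div_le_one_div_of_le (by positivity) (by linarith)
  have hint : IntegrableOn (fun s : ℝ => N / (1 + s) - (Φ s).toReal) (Ioi 0) := by
    refine Integrable.mono' ((i1.const_mul (2 * D)).add (i2.const_mul (2 * N))) ?_ ?_
    · exact Measurable.aestronglyMeasurable (by fun_prop)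
    · refine (ae_restrict_iff' measurableSet_Ioi).mpr (Eventually.of_forall fun s hs => ?_)
      have hs : 0 ≤ s := le_of_lt hs
      have e1 := b1 s hs
      have e3 := b3 s hs
      have e4 := hk s hs
      have e5 : N / (1 + s) - N / (2 + s) ≤ 2 * N * (1 / (s + 2) ^ 2) := by
        rw [div_sub_div _ _ (by positivity) (by positivity), mul_one_div,
          div_le_div_iff₀ (by positivity) (by positivity)]
        have : 0 ≤ N * (s + 2) * s := by positivity
        nlinarith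
      have e6 : N / (1 + s) = 2 * D * (1 / (1 + s)) + D ^ 2 / (1 + s) := by rw [hN]; ring
      have e7 : 2 * D / (s + δ) = 2 * D * (1 / (s + δ)) := by ring
      have e8 : 0 ≤ 2 * N * (1 / (s + 2) ^ 2) := by positivity
      have e9 : 0 ≤ 2 * D * (1 / (s + δ) - 1 / (1 + s)) := by positivity
      simp only [Pi.add_apply, Real.norm_eq_abs]
      rw [abs_le]
      constructor <;> linarith
  refine ⟨hint, ?_⟩
  have i4 : IntegrableOn ((Ioi c).indicator fun s : ℝ => 1 / (s + 2) ^ 2) (Ioi 0) :=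
    i2.indicator measurableSet_Ioi
  have v4 : ∫ s in Ioi (0 : ℝ), (Ioi c).indicator (fun s : ℝ => 1 / (s + 2) ^ 2) s = 1 / (c + 2) := by
    rw [setIntegral_indicator measurableSet_Ioi, Ioi_inter_Ioi, sup_eq_right.mpr hc, v3]
  have hle : ∫ s in Ioi (0 : ℝ), (-2 * D * (1 / (s + δ) - 1 / (1 + s)) +
      3 / 4 * D ^ 2 * (Ioi c).indicator (fun s : ℝ => 1 / (s + 2) ^ 2) s) ≤
        ∫ s in Ioi (0 : ℝ), (N / (1 + s) - (Φ s).toReal) := by
    refine setIntegral_mono_on ((i1.const_mul _).add (i4.const_mul _)) hint measurableSet_Ioi ?_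
    intro s hs
    have hs : 0 ≤ s := le_of_lt hs
    have e6 : N / (1 + s) = 2 * D * (1 / (1 + s)) + D ^ 2 / (1 + s) := by rw [hN]; ring
    have e7 : 2 * D / (s + δ) = 2 * D * (1 / (s + δ)) := by ring
    by_cases hcs : s ∈ Ioi c
    · rw [indicator_of_mem hcs]
      have e1 := b2 s (le_of_lt hcs)
      have e2 : 3 / 4 * D ^ 2 * (1 / (s + 2) ^ 2) ≤ D ^ 2 / (1 + s) - D ^ 2 / (s + 7 / 4) := by
        rw [div_sub_div _ _ (by positivity) (by positivity), mul_one_div,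
          div_le_div_iff₀ (by positivity) (by positivity)]
        have : 0 ≤ D ^ 2 * s := by positivity
        have : 0 ≤ D ^ 2 := by positivity
        nlinarith
      linarith
    · rw [indicator_of_notMem hcs]
      have e1 := b1 s hs
      linarith
  rw [integral_add (i1.const_mul _) (i4.const_mul _), integral_const_mul, integral_const_mul,
    v1, v4, hδ, one_div, Real.log_inv] at hle
  refine le_trans (le_of_eq ?_) hle
  ring

lemma exists_params : ∃ K D : ℕ, 2 ≤ K ∧ D = K ^ 4 ∧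
    (3 : ℝ) ≤ -2 * D * Real.log (5 * D) + 3 / 4 * (D : ℝ) ^ 2 / (80 * (K : ℝ) ^ 3 + 2) := by
  refine ⟨2 ^ 14, (2 ^ 14) ^ 4, by norm_num, rfl, ?_⟩
  have h1 : Real.log (5 * (((2 ^ 14) ^ 4 : ℕ) : ℝ)) ≤ 41 := by
    calc Real.log (5 * (((2 ^ 14) ^ 4 : ℕ) : ℝ)) ≤ Real.log ((2 : ℝ) ^ 59) :=
          Real.log_le_log (by positivity) (by norm_num)
      _ = 59 * Real.log 2 := by rw [Real.log_pow]; norm_num
      _ ≤ 41 := by linarith [Real.log_two_lt_d9]
  have h2 : (3 : ℝ) ≤ -2 * (((2 ^ 14) ^ 4 : ℕ) : ℝ) * 41 +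
      3 / 4 * (((2 ^ 14) ^ 4 : ℕ) : ℝ) ^ 2 / (80 * ((2 ^ 14 : ℕ) : ℝ) ^ 3 + 2) := by norm_num
  have h3 : (0 : ℝ) ≤ (((2 ^ 14) ^ 4 : ℕ) : ℝ) := Nat.cast_nonneg _
  have h4 := mul_le_mul_of_nonneg_left h1 h3
  generalize Real.log (5 * (((2 ^ 14) ^ 4 : ℕ) : ℝ)) = a at *
  generalize 3 / 4 * (((2 ^ 14) ^ 4 : ℕ) : ℝ) ^ 2 / (80 * ((2 ^ 14 : ℕ) : ℝ) ^ 3 + 2) = b at *
  generalize (((2 ^ 14) ^ 4 : ℕ) : ℝ) = c at *
  linarith

end Crest.Agent.R089
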