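import Mathlib

set_option autoImplicit false
set_option linter.deprecated false

namespace Crest.Agent.R089

open Finset

section pattern
variable {L : Type} [Fintype L] [DecidableEq L] (isV : L → Bool)

/-- words with a given pattern -/
noncomputable def pw (σ : List Bool) : Finset (List L) :=
  ((List.finite_length_eq L σ.length).subset
    (t := {w : List L | w.map isV = σ}) (by
      intro w hw
      simp only [Set.mem_setOf_eq] at hw ⊢
      rw [← hw, List.length_map])).toFinset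

omit [DecidableEq L] in
lemma mem_pw (σ : List Bool) (w : List L) : w ∈ pw isV σ ↔ w.map isV = σ := by
  simp [pw]

/-- sum over words with a given pattern -/
noncomputable def ps (σ : List Bool) (F : List L → ℝ) : ℝ := ∑ w ∈ pw isV σ, F w

omit [DecidableEq L] in
lemma ps_append (τ σ : List Bool) (F : List L → ℝ) :
    ps isV (τ ++ σ) F = ∑ α ∈ pw isV τ, ps isV σ (fun β => F (α ++ β)) := by
  unfold ps
  rw [← Finset.sum_product']
  symm
  refine Finset.sum_bij' (fun p _ => p.1 ++ p.2)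
    (fun w _ => (w.take τ.length, w.drop τ.length)) ?_ ?_ ?_ ?_ ?_
  · rintro ⟨α, β⟩ h
    simp only [Finset.mem_product, mem_pw] at h ⊢
    rw [List.map_append, h.1, h.2]
  · intro w hw
    simp only [Finset.mem_product, mem_pw] at hw ⊢
    rw [List.map_take, List.map_drop, hw]
    simp
  · rintro ⟨α, β⟩ h
    simp only [Finset.mem_product, mem_pw] at h
    have : τ.length = α.length := by rw [← h.1, List.length_map]
    simp [this]
  · intro w _
    simp
  · intro p _; rfl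

omit [DecidableEq L] in
lemma ps_nonneg (σ : List Bool) {F : List L → ℝ} (hF : ∀ w, 0 ≤ F w) : 0 ≤ ps isV σ F :=
  Finset.sum_nonneg fun w _ => hF w

lemma ps_prefix_le {ι : Type*} [Fintype ι] (p : ι → List L) (hp : Function.Injective p)
    (τ σ : List Bool) (hτ : ∀ i, (p i).map isV = τ) {F : List L → ℝ} (hF : ∀ w, 0 ≤ F w) :
    ∑ i, ps isV σ (fun β => F (p i ++ β)) ≤ ps isV (τ ++ σ) F := by
  rw [ps_append, ← Finset.sum_image (s := Finset.univ) (g := p)
    (f := fun α => ps isV σ (fun β => F (α ++ β))) (fun a _ b _ h => hp h)]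
  refine Finset.sum_le_sum_of_subset_of_nonneg ?_ fun α _ _ => ps_nonneg isV σ fun _ => hF _
  intro α hα
  obtain ⟨i, _, rfl⟩ := Finset.mem_image.mp hα
  exact (mem_pw isV _ _).mpr (hτ i)

/-- annihilate a first letter -/
def ann {R : Type*} [Zero R] (z : L) (f : List L → R) : List L → R
  | [] => 0
  | y :: β => if y = z then f β else 0

lemma ps_ann_le (σ : List Bool) (z : L) {F : List L → ℝ} (hF : ∀ w, 0 ≤ F w) :
    ps isV σ (ann z F) ≤ ps isV σ.tail F := by
  rcases σ with _ | ⟨b, σ⟩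
  · have : ps isV [] (ann z F) = 0 := by
      refine Finset.sum_eq_zero fun w hw => ?_
      rw [mem_pw, List.map_eq_nil_iff] at hw
      subst hw; rfl
    rw [this]; exact ps_nonneg isV _ hF
  · rw [List.tail_cons, show b :: σ = [b] ++ σ from rfl, ps_append]
    calc ∑ α ∈ pw isV [b], ps isV σ (fun β => ann z F (α ++ β))
        ≤ ∑ α ∈ pw isV [b], if α = [z] then ps isV σ F else 0 := by
          refine Finset.sum_le_sum fun α hα => ?_
          rw [mem_pw] at hα
          obtain ⟨y, rfl⟩ : ∃ y, α = [y] := List.length_eq_one_iff.mp (by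
            have := congrArg List.length hα; simpa using this)
          by_cases hy : y = z
          · subst hy; simp [ann]
          · simp [ann, hy, ps]
      _ ≤ ps isV σ F := by
          rw [Finset.sum_ite_eq']
          split_ifs
          · exact le_rfl
          · exact ps_nonneg isV _ hF

omit [Fintype L] in
lemma ann_nonneg (z : L) {F : List L → ℝ} (hF : ∀ w, 0 ≤ F w) (β : List L) : 0 ≤ ann z F β := by
  rcases β with _ | ⟨y, β⟩
  · exact le_rfl
  · simp only [ann]; split_ifs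
    · exact hF _
    · exact le_rfl

omit [Fintype L] in
lemma norm_ann (z : L) (f : List L → ℂ) (β : List L) :
    ‖ann z f β‖ ^ 2 = ann z (fun w => ‖f w‖ ^ 2) β := by
  rcases β with _ | ⟨y, β⟩
  · simp [ann]
  · simp only [ann]; split_ifs <;> simp

omit [Fintype L] in
lemma norm_sum_ann {ι : Type*} [Fintype ι] (z : ι → L) (hz : Function.Injective z)
    (f : ι → List L → ℂ) (β : List L) :
    ‖∑ i, ann (z i) (f i) β‖ ^ 2 ≤ ∑ i, ann (z i) (fun w => ‖f i w‖ ^ 2) β := by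
  rcases β with _ | ⟨y, β⟩
  · simp [ann]
  · simp only [ann]
    by_cases h : ∃ i, y = z i
    · obtain ⟨i, rfl⟩ := h
      rw [Finset.sum_eq_single i, Finset.sum_eq_single i]
      · simp
      · intro j _ hj; rw [if_neg (fun h => hj (hz h).symm)]
      · simp
      · intro j _ hj; rw [if_neg (fun h => hj (hz h).symm)]
      · simp
    · push Not at h
      simp [h]

lemma norm_sum_sq_le {D : ℕ} (f : Fin D → ℂ) : ‖∑ i, f i‖ ^ 2 ≤ D * ∑ i, ‖f i‖ ^ 2 := by
  calc ‖∑ i, f i‖ ^ 2 ≤ (∑ i, ‖f i‖) ^ 2 := by gcongr; exact norm_sum_le _ _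
    _ ≤ _ := by simpa using sq_sum_le_card_mul_sum_sq (s := Finset.univ) (f := fun i => ‖f i‖)

lemma norm_five (a b c d e : ℂ) : ‖a + b + c + d + e‖ ^ 2 ≤
    5 * (‖a‖ ^ 2 + ‖b‖ ^ 2 + ‖c‖ ^ 2 + ‖d‖ ^ 2 + ‖e‖ ^ 2) := by
  have h : ‖a + b + c + d + e‖ ≤ ‖a‖ + ‖b‖ + ‖c‖ + ‖d‖ + ‖e‖ := by
    refine (norm_add_le _ _).trans ?_
    gcongr
    refine (norm_add_le _ _).trans ?_
    gcongr
    refine (norm_add_le _ _).trans ?_
    gcongr
    exact norm_add_le _ _
  calc _ ≤ (‖a‖ + ‖b‖ + ‖c‖ + ‖d‖ + ‖e‖) ^ 2 := by gcongr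
    _ ≤ _ := by
      nlinarith [sq_nonneg (‖a‖ - ‖b‖), sq_nonneg (‖a‖ - ‖c‖), sq_nonneg (‖a‖ - ‖d‖),
        sq_nonneg (‖a‖ - ‖e‖), sq_nonneg (‖b‖ - ‖c‖), sq_nonneg (‖b‖ - ‖d‖), sq_nonneg (‖b‖ - ‖e‖),
        sq_nonneg (‖c‖ - ‖d‖), sq_nonneg (‖c‖ - ‖e‖), sq_nonneg (‖d‖ - ‖e‖)]

end pattern

/-- The letters used in the rewriting system. -/
structure Letters (L : Type) (D : ℕ) where
  isV : L → Bool
  v : Fin D → L
  w : Fin D → L
  ev : Fin D → L
  ew : Fin D → L
  ey : Fin D × Fin D → L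
  v_inj : Function.Injective v
  w_inj : Function.Injective w
  ev_inj : Function.Injective ev
  ew_inj : Function.Injective ew
  ey_inj : Function.Injective ey
  isV_v : ∀ a, isV (v a) = true
  isV_w : ∀ a, isV (w a) = true
  isV_ev : ∀ a, isV (ev a) = false
  isV_ew : ∀ a, isV (ew a) = false
  isV_ey : ∀ a, isV (ey a) = false
  cover : ∀ l, isV l = true → (∃ a, l = v a) ∨ ∃ b, l = w b

namespace Letters

variable {L : Type} [Fintype L] [DecidableEq L] {D : ℕ} (Λ : Letters L D)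

/-- the rewriting relations at the first letter -/
def Rel (r : ℝ) (y : List L → ℂ) : Prop :=
  (∀ a β, (r : ℂ) * y (Λ.v a :: β) = y (Λ.ev a :: β) +
      ∑ b, y (Λ.ey (a, b) :: Λ.v a :: Λ.w b :: β) +
      ∑ b, ann (Λ.w b) (fun β' => y (Λ.ey (a, b) :: Λ.v a :: β')) β +
      ∑ b, ann (Λ.w b) (ann (Λ.v a) (fun β' => y (Λ.ey (a, b) :: β'))) β +
      ∑ b, y (Λ.w b :: Λ.v a :: Λ.ey (a, b) :: β)) ∧
  (∀ b β, (r : ℂ) * y (Λ.w b :: β) = y (Λ.ew b :: β) +
      ∑ a, y (Λ.v a :: Λ.ey (a, b) :: Λ.v a :: β) +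
      ∑ a, ann (Λ.v a) (fun β' => y (Λ.v a :: Λ.ey (a, b) :: β')) β)

/-- squared mass on a pattern -/
noncomputable def M (y : List L → ℂ) (σ : List Bool) : ℝ := ps Λ.isV σ fun w => ‖y w‖ ^ 2

omit [DecidableEq L] in
lemma M_nonneg (y : List L → ℂ) (σ : List Bool) : 0 ≤ Λ.M y σ :=
  ps_nonneg _ _ fun _ => by positivity

lemma M_true_le (y : List L → ℂ) (σ : List Bool) :
    Λ.M y (true :: σ) ≤ ∑ a, ps Λ.isV σ (fun β => ‖y (Λ.v a :: β)‖ ^ 2) +
      ∑ b, ps Λ.isV σ (fun β => ‖y (Λ.w b :: β)‖ ^ 2) := by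
  unfold M
  rw [show true :: σ = [true] ++ σ from rfl, ps_append]
  set g : List L → ℝ := fun α => ps Λ.isV σ (fun β => ‖y (α ++ β)‖ ^ 2) with hg
  have hg0 : ∀ α, 0 ≤ g α := fun α => ps_nonneg _ _ fun _ => by positivity
  calc ∑ α ∈ pw Λ.isV [true], g α
      ≤ ∑ α ∈ (Finset.univ.image fun a => [Λ.v a]) ∪ (Finset.univ.image fun b => [Λ.w b]), g α := by
        refine Finset.sum_le_sum_of_subset_of_nonneg ?_ fun α _ _ => hg0 α
        intro α hα
        rw [mem_pw] at hα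
        obtain ⟨l, rfl⟩ : ∃ y, α = [y] := List.length_eq_one_iff.mp (by
          have := congrArg List.length hα; simpa using this)
        have hl : Λ.isV l = true := by simpa using hα
        rcases Λ.cover l hl with ⟨a, rfl⟩ | ⟨b, rfl⟩
        · simp
        · simp
    _ ≤ ∑ α ∈ (Finset.univ.image fun a => [Λ.v a]), g α +
          ∑ α ∈ (Finset.univ.image fun b => [Λ.w b]), g α := by
        rw [← Finset.sum_union_inter]
        exact le_add_of_nonneg_right (Finset.sum_nonneg fun α _ => hg0 α)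
    _ = _ := by
        rw [Finset.sum_image (fun a _ b _ h => Λ.v_inj (by simpa using h)),
          Finset.sum_image (fun a _ b _ h => Λ.w_inj (by simpa using h))]
        rfl

lemma step {r : ℝ} {y : List L → ℂ} (h : Λ.Rel r y) (σ : List Bool) :
    r ^ 2 * Λ.M y (true :: σ) ≤ 5 * (2 * Λ.M y (false :: σ) +
      D * Λ.M y (false :: true :: true :: σ) + Λ.M y (false :: true :: σ.tail) +
      Λ.M y (false :: σ.tail.tail) + D * Λ.M y (true :: true :: false :: σ) +
      D * Λ.M y (true :: false :: true :: σ) + Λ.M y (true :: false :: σ.tail)) := by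
  have h0 : ∀ w, 0 ≤ ‖y w‖ ^ 2 := fun w => by positivity
  have hv : ∀ a β, r ^ 2 * ‖y (Λ.v a :: β)‖ ^ 2 ≤ 5 * (‖y (Λ.ev a :: β)‖ ^ 2 +
      D * ∑ b, ‖y (Λ.ey (a, b) :: Λ.v a :: Λ.w b :: β)‖ ^ 2 +
      ∑ b, ann (Λ.w b) (fun β' => ‖y (Λ.ey (a, b) :: Λ.v a :: β')‖ ^ 2) β +
      ∑ b, ann (Λ.w b) (ann (Λ.v a) (fun β' => ‖y (Λ.ey (a, b) :: β')‖ ^ 2)) β +
      D * ∑ b, ‖y (Λ.w b :: Λ.v a :: Λ.ey (a, b) :: β)‖ ^ 2) := by
    intro a β
    have e : r ^ 2 * ‖y (Λ.v a :: β)‖ ^ 2 = ‖(r : ℂ) * y (Λ.v a :: β)‖ ^ 2 := by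
      rw [norm_mul, mul_pow, Complex.norm_real, Real.norm_eq_abs, sq_abs]
    rw [e, h.1 a β]
    refine (norm_five _ _ _ _ _).trans ?_
    gcongr
    · exact norm_sum_sq_le _
    · exact norm_sum_ann _ Λ.w_inj _ _
    · refine (norm_sum_ann _ Λ.w_inj _ _).trans (le_of_eq ?_)
      simp only [norm_ann]
    · exact norm_sum_sq_le _
  have hw : ∀ b β, r ^ 2 * ‖y (Λ.w b :: β)‖ ^ 2 ≤ 5 * (‖y (Λ.ew b :: β)‖ ^ 2 +
      D * ∑ a, ‖y (Λ.v a :: Λ.ey (a, b) :: Λ.v a :: β)‖ ^ 2 +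
      ∑ a, ann (Λ.v a) (fun β' => ‖y (Λ.v a :: Λ.ey (a, b) :: β')‖ ^ 2) β) := by
    intro b β
    have e : r ^ 2 * ‖y (Λ.w b :: β)‖ ^ 2 = ‖(r : ℂ) * y (Λ.w b :: β) + 0 + 0‖ ^ 2 := by
      rw [add_zero, add_zero, norm_mul, mul_pow, Complex.norm_real, Real.norm_eq_abs, sq_abs]
    rw [e, h.2 b β]
    refine (norm_five _ _ _ _ _).trans ?_
    simp only [norm_zero, ne_eq, OfNat.ofNat_ne_zero, not_false_eq_true, zero_pow, add_zero]
    gcongr
    · exact norm_sum_sq_le _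
    · exact norm_sum_ann _ Λ.v_inj _ _
  -- the seven estimates
  have t1 : ∑ a, ps Λ.isV σ (fun β => ‖y (Λ.ev a :: β)‖ ^ 2) ≤ Λ.M y (false :: σ) :=
    ps_prefix_le Λ.isV (fun a => [Λ.ev a]) (fun a b h => Λ.ev_inj (by simpa using h)) [false] σ
      (fun a => by simp [Λ.isV_ev]) h0
  have t1' : ∑ a, ps Λ.isV σ (fun β => ‖y (Λ.ew a :: β)‖ ^ 2) ≤ Λ.M y (false :: σ) :=
    ps_prefix_le Λ.isV (fun a => [Λ.ew a]) (fun a b h => Λ.ew_inj (by simpa using h)) [false] σ
      (fun a => by simp [Λ.isV_ew]) h0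
  have t2 : ∑ p : Fin D × Fin D, ps Λ.isV σ (fun β => ‖y (Λ.ey p :: Λ.v p.1 :: Λ.w p.2 :: β)‖ ^ 2) ≤
      Λ.M y (false :: true :: true :: σ) :=
    ps_prefix_le Λ.isV (fun p : Fin D × Fin D => [Λ.ey p, Λ.v p.1, Λ.w p.2])
      (fun a b h => Λ.ey_inj (by simp at h; exact h.1)) [false, true, true] σ
      (fun a => by simp [Λ.isV_ey, Λ.isV_v, Λ.isV_w]) h0
  have t3 : ∑ p : Fin D × Fin D, ps Λ.isV σ.tail (fun β => ‖y (Λ.ey p :: Λ.v p.1 :: β)‖ ^ 2) ≤
      Λ.M y (false :: true :: σ.tail) :=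
    ps_prefix_le Λ.isV (fun p : Fin D × Fin D => [Λ.ey p, Λ.v p.1])
      (fun a b h => Λ.ey_inj (by simp at h; exact h.1)) [false, true] σ.tail
      (fun a => by simp [Λ.isV_ey, Λ.isV_v]) h0
  have t4 : ∑ p : Fin D × Fin D, ps Λ.isV σ.tail.tail (fun β => ‖y (Λ.ey p :: β)‖ ^ 2) ≤
      Λ.M y (false :: σ.tail.tail) :=
    ps_prefix_le Λ.isV (fun p : Fin D × Fin D => [Λ.ey p])
      (fun a b h => Λ.ey_inj (by simpa using h)) [false] σ.tail.tail
      (fun a => by simp [Λ.isV_ey]) h0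
  have t5 : ∑ p : Fin D × Fin D, ps Λ.isV σ (fun β => ‖y (Λ.w p.2 :: Λ.v p.1 :: Λ.ey p :: β)‖ ^ 2) ≤
      Λ.M y (true :: true :: false :: σ) :=
    ps_prefix_le Λ.isV (fun p : Fin D × Fin D => [Λ.w p.2, Λ.v p.1, Λ.ey p])
      (fun a b h => Λ.ey_inj (by simp at h; exact h.2.2)) [true, true, false] σ
      (fun a => by simp [Λ.isV_ey, Λ.isV_v, Λ.isV_w]) h0
  have t6 : ∑ p : Fin D × Fin D, ps Λ.isV σ (fun β => ‖y (Λ.v p.1 :: Λ.ey p :: Λ.v p.1 :: β)‖ ^ 2) ≤
      Λ.M y (true :: false :: true :: σ) :=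
    ps_prefix_le Λ.isV (fun p : Fin D × Fin D => [Λ.v p.1, Λ.ey p, Λ.v p.1])
      (fun a b h => Λ.ey_inj (by simp at h; exact h.2.1)) [true, false, true] σ
      (fun a => by simp [Λ.isV_ey, Λ.isV_v]) h0
  have t7 : ∑ p : Fin D × Fin D, ps Λ.isV σ.tail (fun β => ‖y (Λ.v p.1 :: Λ.ey p :: β)‖ ^ 2) ≤
      Λ.M y (true :: false :: σ.tail) :=
    ps_prefix_le Λ.isV (fun p : Fin D × Fin D => [Λ.v p.1, Λ.ey p])
      (fun a b h => Λ.ey_inj (by simp at h; exact h.2)) [true, false] σ.tail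
      (fun a => by simp [Λ.isV_ey, Λ.isV_v]) h0
  have t3' : ∑ a, ∑ b, ps Λ.isV σ
      (ann (Λ.w b) (fun β' => ‖y (Λ.ey (a, b) :: Λ.v a :: β')‖ ^ 2)) ≤
      Λ.M y (false :: true :: σ.tail) := by
    refine le_trans ?_ t3
    rw [Fintype.sum_prod_type]
    gcongr with a _ b _
    exact ps_ann_le _ _ _ fun _ => h0 _
  have t4' : ∑ a, ∑ b, ps Λ.isV σ
      (ann (Λ.w b) (ann (Λ.v a) (fun β' => ‖y (Λ.ey (a, b) :: β')‖ ^ 2))) ≤
      Λ.M y (false :: σ.tail.tail) := by
    refine le_trans ?_ t4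
    rw [Fintype.sum_prod_type]
    gcongr with a _ b _
    exact (ps_ann_le _ _ _ (ann_nonneg _ fun _ => h0 _)).trans (ps_ann_le _ _ _ fun _ => h0 _)
  have t7' : ∑ b, ∑ a, ps Λ.isV σ
      (ann (Λ.v a) (fun β' => ‖y (Λ.v a :: Λ.ey (a, b) :: β')‖ ^ 2)) ≤
      Λ.M y (true :: false :: σ.tail) := by
    refine le_trans ?_ t7
    rw [Fintype.sum_prod_type_right]
    gcongr with a _ b _
    exact ps_ann_le _ _ _ fun _ => h0 _
  rw [Fintype.sum_prod_type] at t2 t5
  rw [Fintype.sum_prod_type_right] at t6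
  have hD : (0 : ℝ) ≤ D := Nat.cast_nonneg D
  have sv : r ^ 2 * ∑ a, ps Λ.isV σ (fun β => ‖y (Λ.v a :: β)‖ ^ 2) ≤
      5 * (∑ a, ps Λ.isV σ (fun β => ‖y (Λ.ev a :: β)‖ ^ 2) +
        D * ∑ a, ∑ b, ps Λ.isV σ (fun β => ‖y (Λ.ey (a, b) :: Λ.v a :: Λ.w b :: β)‖ ^ 2) +
        ∑ a, ∑ b, ps Λ.isV σ (ann (Λ.w b) (fun β' => ‖y (Λ.ey (a, b) :: Λ.v a :: β')‖ ^ 2)) +
        ∑ a, ∑ b, ps Λ.isV σ
          (ann (Λ.w b) (ann (Λ.v a) (fun β' => ‖y (Λ.ey (a, b) :: β')‖ ^ 2))) +
        D * ∑ a, ∑ b, ps Λ.isV σ (fun β => ‖y (Λ.w b :: Λ.v a :: Λ.ey (a, b) :: β)‖ ^ 2)) := by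
    simp only [Finset.mul_sum, ← Finset.sum_add_distrib]
    refine Finset.sum_le_sum fun a _ => ?_
    unfold ps
    simp only [Finset.sum_comm (s := (Finset.univ : Finset (Fin D))) (t := pw Λ.isV σ),
      Finset.mul_sum, ← Finset.sum_add_distrib]
    refine Finset.sum_le_sum fun β _ => ?_
    have := hv a β
    simp only [Finset.mul_sum] at this
    exact this
  have sw : r ^ 2 * ∑ b, ps Λ.isV σ (fun β => ‖y (Λ.w b :: β)‖ ^ 2) ≤
      5 * (∑ b, ps Λ.isV σ (fun β => ‖y (Λ.ew b :: β)‖ ^ 2) +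
        D * ∑ b, ∑ a, ps Λ.isV σ (fun β => ‖y (Λ.v a :: Λ.ey (a, b) :: Λ.v a :: β)‖ ^ 2) +
        ∑ b, ∑ a, ps Λ.isV σ
          (ann (Λ.v a) (fun β' => ‖y (Λ.v a :: Λ.ey (a, b) :: β')‖ ^ 2))) := by
    simp only [Finset.mul_sum, ← Finset.sum_add_distrib]
    refine Finset.sum_le_sum fun a _ => ?_
    unfold ps
    simp only [Finset.sum_comm (s := (Finset.univ : Finset (Fin D))) (t := pw Λ.isV σ),
      Finset.mul_sum, ← Finset.sum_add_distrib]
    refine Finset.sum_le_sum fun β _ => ?_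
    have := hw a β
    simp only [Finset.mul_sum] at this
    exact this
  have hM := mul_le_mul_of_nonneg_left (Λ.M_true_le y σ) (sq_nonneg r)
  have t2' := mul_le_mul_of_nonneg_left t2 hD
  have t5' := mul_le_mul_of_nonneg_left t5 hD
  have t6' := mul_le_mul_of_nonneg_left t6 hD
  rw [mul_add] at hM
  linarith

omit [DecidableEq L] in
lemma M_append (x : List L → ℂ) (τ σ : List Bool) :
    Λ.M x (τ ++ σ) = ∑ α ∈ pw Λ.isV τ, Λ.M (fun β => x (α ++ β)) σ := ps_append _ _ _ _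

lemma step' {r : ℝ} {x : List L → ℂ}
    (h : ∀ α : List L, (∀ l ∈ α, Λ.isV l = false) → Λ.Rel r (fun β => x (α ++ β)))
    (k : ℕ) (σ : List Bool) :
    r ^ 2 * Λ.M x (List.replicate k false ++ true :: σ) ≤
      5 * (2 * Λ.M x (List.replicate k false ++ false :: σ) +
      D * Λ.M x (List.replicate k false ++ false :: true :: true :: σ) +
      Λ.M x (List.replicate k false ++ false :: true :: σ.tail) +
      Λ.M x (List.replicate k false ++ false :: σ.tail.tail) +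
      D * Λ.M x (List.replicate k false ++ true :: true :: false :: σ) +
      D * Λ.M x (List.replicate k false ++ true :: false :: true :: σ) +
      Λ.M x (List.replicate k false ++ true :: false :: σ.tail)) := by
  simp only [M_append, Finset.mul_sum, ← Finset.sum_add_distrib]
  refine Finset.sum_le_sum fun α hα => Λ.step (h α ?_) σ
  rw [mem_pw] at hα
  intro l hl
  have : Λ.isV l ∈ α.map Λ.isV := List.mem_map_of_mem hl
  rw [hα] at this
  exact List.eq_of_mem_replicate this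

lemma exists_first_true (σ : List Bool) (h : σ.count true ≠ 0) :
    ∃ k σ', σ = List.replicate k false ++ true :: σ' := by
  induction σ with
  | nil => simp at h
  | cons b σ ih =>
    cases b with
    | true => exact ⟨0, σ, rfl⟩
    | false =>
      obtain ⟨k, σ', rfl⟩ := ih (by simpa using h)
      exact ⟨k + 1, σ', rfl⟩

lemma count_tail_le (σ : List Bool) : σ.count true ≤ σ.tail.count true + 1 := by
  rcases σ with _ | ⟨b, σ⟩
  · simp
  · cases b <;> simp

/-- The main estimate. -/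
theorem main_bound {K : ℕ} (hK : 1 ≤ K) (hD : D = K ^ 4) {r : ℝ} (hr : 80 * (K : ℝ) ^ 3 ≤ r ^ 2)
    {x : List L → ℂ}
    (h : ∀ α : List L, (∀ l ∈ α, Λ.isV l = false) → Λ.Rel r (fun β => x (α ++ β)))
    {N : ℕ} (hN : ∀ w : List L, N < w.length → x w = 0) {B : ℝ} (hB : ∀ σ, Λ.M x σ ≤ B)
    (σ : List Bool) : (K : ℝ) ^ σ.count true * Λ.M x σ ≤ B := by
  have hK1 : (1 : ℝ) ≤ K := by exact_mod_cast hK
  have hB0 : 0 ≤ B := (Λ.M_nonneg x []).trans (hB [])
  have hbdd : BddAbove (Set.range fun σ : List Bool => (K : ℝ) ^ σ.count true * Λ.M x σ) := by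
    refine ⟨(K : ℝ) ^ N * B, ?_⟩
    rintro _ ⟨σ, rfl⟩
    by_cases hσ : σ.length ≤ N
    · have : σ.count true ≤ N := List.count_le_length.trans hσ
      exact mul_le_mul (pow_le_pow_right₀ hK1 this) (hB σ) (Λ.M_nonneg x σ) (by positivity)
    · have : Λ.M x σ = 0 := by
        refine Finset.sum_eq_zero fun w hw => ?_
        rw [mem_pw] at hw
        rw [hN w (by rw [← hw, List.length_map] at hσ; omega)]; simp
      simp only [this, mul_zero]; positivity
  set μ := ⨆ σ : List Bool, (K : ℝ) ^ σ.count true * Λ.M x σ with hμ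
  have hle : ∀ σ : List Bool, (K : ℝ) ^ σ.count true * Λ.M x σ ≤ μ := fun σ => le_ciSup hbdd σ
  have hμ0 : 0 ≤ μ := le_trans (by simpa using Λ.M_nonneg x []) (hle [])
  have hterm : ∀ (c : ℕ) (ρ : List Bool), c ≤ ρ.count true + 3 →
      (K : ℝ) ^ c * Λ.M x ρ ≤ (K : ℝ) ^ 3 * μ := by
    intro c ρ hc
    calc (K : ℝ) ^ c * Λ.M x ρ ≤ (K : ℝ) ^ (ρ.count true + 3) * Λ.M x ρ :=
          mul_le_mul_of_nonneg_right (pow_le_pow_right₀ hK1 hc) (Λ.M_nonneg x ρ)
      _ = (K : ℝ) ^ 3 * ((K : ℝ) ^ ρ.count true * Λ.M x ρ) := by ring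
      _ ≤ _ := mul_le_mul_of_nonneg_left (hle ρ) (by positivity)
  have hall : ∀ σ : List Bool, (K : ℝ) ^ σ.count true * Λ.M x σ ≤ max B (μ / 2) := by
    intro σ
    by_cases hc : σ.count true = 0
    · rw [hc, pow_zero, one_mul]; exact (hB σ).trans (le_max_left _ _)
    · refine le_trans ?_ (le_max_right _ _)
      obtain ⟨k, σ', rfl⟩ := exists_first_true σ hc
      have hs := Λ.step' h k σ'
      have e1 := count_tail_le σ'
      have e2 := count_tail_le σ'.tail
      have hcount : (List.replicate k false ++ true :: σ').count true = σ'.count true + 1 := by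
        simp [List.count_replicate]
      rw [hcount]
      set c := σ'.count true + 1 with hcdef
      have a1 := hterm c (List.replicate k false ++ false :: σ') (by simp [List.count_replicate]; omega)
      have a2 := hterm (c + 4) (List.replicate k false ++ false :: true :: true :: σ')
        (by simp [List.count_replicate]; omega)
      have a3 := hterm c (List.replicate k false ++ false :: true :: σ'.tail)
        (by simp [List.count_replicate]; omega)
      have a4 := hterm c (List.replicate k false ++ false :: σ'.tail.tail)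
        (by simp [List.count_replicate]; omega)
      have a5 := hterm (c + 4) (List.replicate k false ++ true :: true :: false :: σ')
        (by simp [List.count_replicate]; omega)
      have a6 := hterm (c + 4) (List.replicate k false ++ true :: false :: true :: σ')
        (by simp [List.count_replicate]; omega)
      have a7 := hterm c (List.replicate k false ++ true :: false :: σ'.tail)
        (by simp [List.count_replicate]; omega)
      have hDK : (D : ℝ) = (K : ℝ) ^ 4 := by rw [hD]; push_cast; ring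
      rw [hDK] at hs
      rw [pow_add] at a2 a5 a6
      have hKc : (0 : ℝ) ≤ (K : ℝ) ^ c := by positivity
      have hs' := mul_le_mul_of_nonneg_left hs hKc
      have hK3 : (0 : ℝ) < (K : ℝ) ^ 3 := by positivity
      have hm : 0 ≤ (K : ℝ) ^ c * Λ.M x (List.replicate k false ++ true :: σ') :=
        mul_nonneg hKc (Λ.M_nonneg _ _)
      have h1 : r ^ 2 * ((K : ℝ) ^ c * Λ.M x (List.replicate k false ++ true :: σ')) ≤
          40 * ((K : ℝ) ^ 3 * μ) := by nlinarith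
      have h2 : 80 * (K : ℝ) ^ 3 * ((K : ℝ) ^ c * Λ.M x (List.replicate k false ++ true :: σ')) ≤
          40 * ((K : ℝ) ^ 3 * μ) := (mul_le_mul_of_nonneg_right hr hm).trans h1
      nlinarith
  have hμle : μ ≤ max B (μ / 2) := ciSup_le hall
  have : μ ≤ B := by
    rcases le_max_iff.mp hμle with h | h
    · exact h
    · linarith
  exact (hle σ).trans this

end Letters

end Crest.Agent.R089
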