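import Crest.Agent.R089.Defs
import Crest.Agent.R089.Free
import Crest.Agent.R089.Pattern

set_option autoImplicit false
set_option linter.deprecated false

namespace Crest.Agent.R089

open Crest.OpAlg
open scoped ComplexConjugate TensorProduct

namespace FockModel

variable {L : Type} [DecidableEq L] {A : Type} [CStarAlgebra A] (F : FockModel L A)

lemma cf_s (w : List L) (l : L) : F.cf w (F.s l) = if w = [l] then 1 else 0 := by
  rw [← mul_one (F.s l)]
  rcases w with _ | ⟨x, t⟩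
  · rw [F.left_nil]; simp [F.cf_one]
  · rw [F.left_cons]; simp only [F.cf_one]
    by_cases h1 : x = l <;> by_cases h2 : t = [] <;> simp [h1, h2]

lemma cf_left (l : L) (a : A) (β : List L) :
    F.cf β (F.s l * a) = F.cf (l :: β) a + ann l (fun β' => F.cf β' a) β := by
  rcases β with _ | ⟨x, t⟩
  · rw [F.left_nil]; simp [ann]
  · rw [F.left_cons]; rfl

lemma cf_right (l : L) (a : A) (α : List L) (hα : α.getLast? ≠ some l) :
    F.cf α (a * F.s l) = F.cf (α ++ [l]) a := by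
  induction α using List.reverseRecOn with
  | nil => rw [F.right_nil]; rfl
  | append_singleton t x _ =>
    rw [F.right_snoc, if_neg, add_zero]
    · simp
    · rintro rfl; simp at hα

/-- `x ⊗ y ↦ cf α (x p) * cf β (q y)` -/
noncomputable def psi (p q : A) (α β : List L) (U : A ⊗[ℂ] A) : ℂ :=
  F.phi α β (sharp (p ⊗ₜ[ℂ] q) U)

lemma psi_tmul (p q x y : A) (α β : List L) :
    F.psi p q α β (x ⊗ₜ[ℂ] y) = F.cf α (x * p) * F.cf β (q * y) := by
  simp [psi, sharp_tmul]

lemma psi_add (p q : A) (α β : List L) (U U' : A ⊗[ℂ] A) :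
    F.psi p q α β (U + U') = F.psi p q α β U + F.psi p q α β U' := by
  simp [psi]

lemma psi_zero (p q : A) (α β : List L) : F.psi p q α β 0 = 0 := by simp [psi]

lemma psi_one (α β : List L) (U : A ⊗[ℂ] A) : F.psi 1 1 α β U = F.phi α β U := by
  rw [psi, sharp_one]

lemma psi_right (p q : A) (l : L) (α β : List L) (hα : α.getLast? ≠ some l) (U : A ⊗[ℂ] A) :
    F.psi (p * F.s l) q α β U = F.psi p q (α ++ [l]) β U := by
  induction U using TensorProduct.induction_on with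
  | zero => simp [psi_zero]
  | tmul x y => rw [psi_tmul, psi_tmul, ← mul_assoc, F.cf_right _ _ _ hα]
  | add x y hx hy => rw [psi_add, psi_add, hx, hy]

lemma psi_left (p q : A) (l : L) (α β : List L) (U : A ⊗[ℂ] A) :
    F.psi p (F.s l * q) α β U =
      F.psi p q α (l :: β) U + ann l (fun β' => F.psi p q α β' U) β := by
  induction U using TensorProduct.induction_on with
  | zero => rcases β with _ | ⟨x, t⟩ <;> simp [psi_zero, ann]
  | tmul x y =>
    simp only [psi_tmul, mul_assoc, F.cf_left]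
    rcases β with _ | ⟨z, t⟩
    · simp [ann]
    · simp only [ann]; split_ifs <;> ring
  | add x y hx hy =>
    simp only [psi_add, hx, hy]
    rcases β with _ | ⟨z, t⟩
    · simp [ann]
    · simp only [ann]; split_ifs <;> ring

/-- squared `L²` norm -/
noncomputable def nsq (y : A) : ℝ := (F.cf [] (star y * y)).re

end FockModel

lemma mul_ann {L : Type} [DecidableEq L] (c : ℂ) (z : L) (f : List L → ℂ) (β : List L) :
    c * ann z f β = ann z (fun w => c * f w) β := by
  rcases β with _ | ⟨y, β⟩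
  · simp [ann]
  · simp [ann]

lemma ann_add {L : Type} [DecidableEq L] (z : L) (f g : List L → ℂ) (β : List L) :
    ann z (fun w => f w + g w) β = ann z f β + ann z g β := by
  rcases β with _ | ⟨y, β⟩
  · simp [ann]
  · simp only [ann]; split_ifs <;> simp

/-- The index data. -/
structure Idx (n D : ℕ) where
  e : Fin n ≃ (Fin D ⊕ Fin D) ⊕ (Fin D × Fin D)

namespace Idx

variable {n D : ℕ} (I : Idx n D)

def iv (a : Fin D) : Fin n := I.e.symm (.inl (.inl a))
def iw (a : Fin D) : Fin n := I.e.symm (.inl (.inr a))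
def iy (p : Fin D × Fin D) : Fin n := I.e.symm (.inr p)

def cc (i : Fin n) : Option (Fin n × Fin n) :=
  match I.e i with
  | .inl _ => none
  | .inr p => some (I.iv p.1, I.iw p.2)

@[simp] lemma cc_iv (a : Fin D) : I.cc (I.iv a) = none := by simp [cc, iv]
@[simp] lemma cc_iw (a : Fin D) : I.cc (I.iw a) = none := by simp [cc, iw]
@[simp] lemma cc_iy (p : Fin D × Fin D) : I.cc (I.iy p) = some (I.iv p.1, I.iw p.2) := by
  simp [cc, iy]
@[simp] lemma iv_inj (a b : Fin D) : I.iv a = I.iv b ↔ a = b := by simp [iv]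
@[simp] lemma iw_inj (a b : Fin D) : I.iw a = I.iw b ↔ a = b := by simp [iw]
@[simp] lemma iy_inj (a b : Fin D × Fin D) : I.iy a = I.iy b ↔ a = b := by simp [iy]
@[simp] lemma iv_ne_iw (a b : Fin D) : I.iv a ≠ I.iw b := by simp [iv, iw]
@[simp] lemma iw_ne_iv (a b : Fin D) : I.iw a ≠ I.iv b := by simp [iv, iw]
@[simp] lemma iv_ne_iy (a : Fin D) (b : Fin D × Fin D) : I.iv a ≠ I.iy b := by simp [iv, iy]
@[simp] lemma iy_ne_iv (a : Fin D) (b : Fin D × Fin D) : I.iy b ≠ I.iv a := by simp [iv, iy]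
@[simp] lemma iw_ne_iy (a : Fin D) (b : Fin D × Fin D) : I.iw a ≠ I.iy b := by simp [iw, iy]
@[simp] lemma iy_ne_iw (a : Fin D) (b : Fin D × Fin D) : I.iy b ≠ I.iw a := by simp [iw, iy]

lemma cases (i : Fin n) : (∃ a, i = I.iv a) ∨ (∃ a, i = I.iw a) ∨ ∃ p, i = I.iy p := by
  obtain ⟨j, rfl⟩ := I.e.symm.surjective i
  rcases j with (a | a) | p
  · exact Or.inl ⟨a, rfl⟩
  · exact Or.inr (Or.inl ⟨a, rfl⟩)
  · exact Or.inr (Or.inr ⟨p, rfl⟩)

lemma sum_eq {M : Type*} [AddCommMonoid M] (f : Fin n → M) :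
    ∑ j, f j = ∑ a, f (I.iv a) + ∑ b, f (I.iw b) + ∑ p, f (I.iy p) := by
  rw [← I.e.symm.sum_comp, Fintype.sum_sum_type, Fintype.sum_sum_type]
  rfl

lemma hcc : ∀ i j k, I.cc i = some (j, k) → I.cc j = none ∧ I.cc k = none := by
  intro i j k h
  rcases I.cases i with ⟨a, rfl⟩ | ⟨a, rfl⟩ | ⟨p, rfl⟩
  · simp at h
  · simp at h
  · simp only [cc_iy, Option.some.injEq, Prod.mk.injEq] at h
    rw [← h.1, ← h.2]; simp

lemma card (I : Idx n D) : n = D + D + D * D := by
  simpa using Fintype.card_congr I.e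

def isV : Fin n ⊕ Fin n → Bool
  | .inl i => (I.e i).isLeft
  | .inr _ => false

@[simp] lemma isV_iv (a : Fin D) : I.isV (.inl (I.iv a)) = true := by simp [isV, iv]
@[simp] lemma isV_iw (a : Fin D) : I.isV (.inl (I.iw a)) = true := by simp [isV, iw]
@[simp] lemma isV_iy (a : Fin D × Fin D) : I.isV (.inl (I.iy a)) = false := by simp [isV, iy]
@[simp] lemma isV_inr (a : Fin n) : I.isV (.inr a) = false := rfl

def letters : Letters (Fin n ⊕ Fin n) D where
  isV := I.isV
  v a := .inl (I.iv a)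
  w a := .inl (I.iw a)
  ev a := .inr (I.iv a)
  ew a := .inr (I.iw a)
  ey p := .inr (I.iy p)
  v_inj a b h := by simpa using h
  w_inj a b h := by simpa using h
  ev_inj a b h := by simpa using h
  ew_inj a b h := by simpa using h
  ey_inj a b h := by simpa using h
  isV_v := I.isV_iv
  isV_w := I.isV_iw
  isV_ev _ := rfl
  isV_ew _ := rfl
  isV_ey _ := rfl
  cover l hl := by
    rcases l with i | i
    · rcases I.cases i with ⟨a, rfl⟩ | ⟨a, rfl⟩ | ⟨p, rfl⟩
      · exact Or.inl ⟨a, rfl⟩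
      · exact Or.inr ⟨a, rfl⟩
      · simp at hl
    · simp at hl

variable {A : Type} [CStarAlgebra A] (F : FockModel (Fin n ⊕ Fin n) A)

/-- base semicirculars -/
def S0 (F : FockModel (Fin n ⊕ Fin n) A) : Fin n → A := fun i => F.s (.inl i)
/-- the semicircular noise -/
def S1 (F : FockModel (Fin n ⊕ Fin n) A) : Fin n → A := fun i => F.s (.inr i)
/-- the tuple -/
def XX : Fin n → A := shearT I.cc (S0 F)
/-- the perturbed tuple -/
noncomputable def ZZ (s : ℝ) : Fin n → A := heatTuple (I.XX F) (S1 F) s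

lemma ZZ_iv (s : ℝ) (a : Fin D) : I.ZZ F s (I.iv a) =
    F.s (.inl (I.iv a)) + (Real.sqrt s : ℂ) • F.s (.inr (I.iv a)) := by
  simp [ZZ, heatTuple, XX, shearT, S0, S1]

lemma ZZ_iw (s : ℝ) (a : Fin D) : I.ZZ F s (I.iw a) =
    F.s (.inl (I.iw a)) + (Real.sqrt s : ℂ) • F.s (.inr (I.iw a)) := by
  simp [ZZ, heatTuple, XX, shearT, S0, S1]

lemma ZZ_iy (s : ℝ) (p : Fin D × Fin D) : I.ZZ F s (I.iy p) =
    F.s (.inl (I.iy p)) + F.s (.inl (I.iv p.1)) * F.s (.inl (I.iw p.2)) * F.s (.inl (I.iv p.1)) +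
      (Real.sqrt s : ℂ) • F.s (.inr (I.iy p)) := by
  simp [ZZ, heatTuple, XX, shearT, S0, S1]

lemma XX_mem (S : Subalgebra ℂ A) (hS : ∀ i, F.s (.inl i) ∈ S) (i : Fin n) : I.XX F i ∈ S := by
  unfold XX shearT S0
  refine S.add_mem (hS i) ?_
  rcases I.cc i with _ | p
  · exact S.zero_mem
  · exact S.mul_mem (S.mul_mem (hS _) (hS _)) (hS _)

lemma XX_sa (i : Fin n) : IsSelfAdjoint (I.XX F i) := by
  unfold XX shearT S0
  refine (F.sa _).add ?_
  rcases I.cc i with _ | p
  · exact IsSelfAdjoint.zero _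
  · simp only [Option.elim_some, IsSelfAdjoint, star_mul, (F.sa _).star_eq, mul_assoc]

lemma ZZ_sa (s : ℝ) (i : Fin n) : IsSelfAdjoint (I.ZZ F s i) := by
  unfold ZZ heatTuple
  refine (I.XX_sa F i).add ?_
  rw [IsSelfAdjoint, star_smul, (show star (S1 F i) = S1 F i from F.sa _)]
  simp

lemma ZZ_deg (s : ℝ) (i : Fin n) : I.ZZ F s i ∈ F.degAlg :=
  Subalgebra.add_mem _ (I.XX_mem F _ (fun _ => F.s_mem_degAlg _) i)
    (Subalgebra.smul_mem _ (F.s_mem_degAlg _) _)

/-- indicator tensor -/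
noncomputable def ind (A : Type) [CStarAlgebra A] (l h : Fin n ⊕ Fin n) : A ⊗[ℂ] A :=
  if l = h then (1 : A) ⊗ₜ[ℂ] (1 : A) else 0

/-- derivative tensors of the perturbed tuple -/
noncomputable def TT (s : ℝ) (h : Fin n ⊕ Fin n) (j : Fin n) : A ⊗[ℂ] A :=
  ind A (.inl j) h + (I.cc j).elim 0 (fun p =>
    ((F.s (.inl p.1) * F.s (.inl p.2)) ⊗ₜ[ℂ] (1 : A)) * ind A (.inl p.1) h +
      ((F.s (.inl p.1) ⊗ₜ[ℂ] (1 : A)) * ind A (.inl p.2) h +
        ind A (.inl p.1) h * ((1 : A) ⊗ₜ[ℂ] F.s (.inl p.2))) * ((1 : A) ⊗ₜ[ℂ] F.s (.inl p.1))) +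
    (Real.sqrt s : ℂ) • ind A (.inr j) h

lemma der_ZZ (s : ℝ) (h : Fin n ⊕ Fin n) (j : Fin n) : F.Der h (I.ZZ F s j) (I.TT F s h j) := by
  unfold ZZ heatTuple XX shearT S0 S1 TT
  refine ((FockModel.Der.letter h _).add ?_).add ((FockModel.Der.letter h _).smul _)
  rcases I.cc j with _ | p
  · exact FockModel.Der.zero h
  · exact ((FockModel.Der.letter h _).mul (FockModel.Der.letter h _)).mul
      (FockModel.Der.letter h _)

/-- `U` is the family of difference quotients of `y`. -/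
def Good (s : ℝ) (y : A) (U : Fin n → A ⊗[ℂ] A) : Prop :=
  y ∈ F.degAlg ∧ ∀ h α β, F.cf (α ++ h :: β) y = ∑ j, F.phi α β (sharp (I.TT F s h j) (U j))

lemma good_poly (s : ℝ) (P : NCPoly n) :
    I.Good F s (polyEval (I.ZZ F s) P) (fun j => dP (I.ZZ F s) j P) :=
  ⟨polyEval_mem _ _ (I.ZZ_deg F s) P, fun h α β => FockModel.cf_polyEval (I.der_ZZ F s h) P α β⟩

lemma good_ZZ (s : ℝ) (i : Fin n) :
    I.Good F s (I.ZZ F s i) (fun j => if j = i then (1 : A) ⊗ₜ[ℂ] (1 : A) else 0) := by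
  refine ⟨I.ZZ_deg F s i, fun h α β => ?_⟩
  rw [(I.der_ZZ F s h i).cf, Finset.sum_eq_single i]
  · simp only [if_true]
    rw [sharp_tmul, ← Algebra.TensorProduct.one_def, one_mul, mul_one]
  · intro j _ hj; simp [hj]
  · simp

variable {I F}

lemma Good.sub_smul {s : ℝ} {y y' : A} {U U' : Fin n → A ⊗[ℂ] A} (h : I.Good F s y U)
    (h' : I.Good F s y' U') (c : ℂ) : I.Good F s (y - c • y') (fun j => U j - c • U' j) := by
  refine ⟨Subalgebra.sub_mem _ h.1 (Subalgebra.smul_mem _ h'.1 _), fun l α β => ?_⟩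
  simp only [map_sub, map_smul, h.2, h'.2, Finset.sum_sub_distrib, Finset.smul_sum]

lemma Good.e1 {s : ℝ} {y : A} {U : Fin n → A ⊗[ℂ] A} (h : I.Good F s y U) (i : Fin n)
    (α β : List (Fin n ⊕ Fin n)) :
    F.cf (α ++ .inr i :: β) y = (Real.sqrt s : ℂ) * F.psi 1 1 α β (U i) := by
  rw [h.2, Finset.sum_eq_single i]
  · have : I.TT F s (.inr i) i = (Real.sqrt s : ℂ) • ((1 : A) ⊗ₜ[ℂ] (1 : A)) := by
      unfold TT ind
      rcases I.cc i with _ | p <;> simp
    rw [this, sharp_smul, map_smul]; rfl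
  · intro j _ hj
    have : I.TT F s (.inr i) j = 0 := by
      unfold TT ind
      rcases I.cc j with _ | p <;> simp [hj]
    rw [this, sharp_zero, map_zero]
  · simp

lemma Good.e0 {s : ℝ} {y : A} {U : Fin n → A ⊗[ℂ] A} (h : I.Good F s y U) (p : Fin D × Fin D)
    (α β : List (Fin n ⊕ Fin n)) :
    F.cf (α ++ .inl (I.iy p) :: β) y = F.psi 1 1 α β (U (I.iy p)) := by
  rw [h.2, Finset.sum_eq_single (I.iy p)]
  · have : I.TT F s (.inl (I.iy p)) (I.iy p) = ((1 : A) ⊗ₜ[ℂ] (1 : A)) := by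
      unfold TT ind
      simp
    rw [this]; rfl
  · intro j _ hj
    have : I.TT F s (.inl (I.iy p)) j = 0 := by
      unfold TT ind
      rcases I.cases j with ⟨a, rfl⟩ | ⟨a, rfl⟩ | ⟨q, rfl⟩
      · simp
      · simp
      · simp only [ne_eq, iy_inj] at hj; simp [hj]
    rw [this, sharp_zero, map_zero]
  · simp

lemma Good.v {s : ℝ} {y : A} {U : Fin n → A ⊗[ℂ] A} (h : I.Good F s y U) (a : Fin D)
    (α β : List (Fin n ⊕ Fin n)) :
    F.cf (α ++ .inl (I.iv a) :: β) y = F.psi 1 1 α β (U (I.iv a)) +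
      ∑ b, (F.psi (F.s (.inl (I.iv a)) * F.s (.inl (I.iw b))) 1 α β (U (I.iy (a, b))) +
        F.psi 1 (F.s (.inl (I.iw b)) * F.s (.inl (I.iv a))) α β (U (I.iy (a, b)))) := by
  rw [h.2, I.sum_eq, Fintype.sum_prod_type, Finset.sum_eq_single a, Finset.sum_eq_zero (s := Finset.univ)
    (f := fun b => F.phi α β (sharp (I.TT F s (.inl (I.iv a)) (I.iw b)) (U (I.iw b)))), add_zero,
    Finset.sum_eq_single a]
  · congr 1
    · have : I.TT F s (.inl (I.iv a)) (I.iv a) = ((1 : A) ⊗ₜ[ℂ] (1 : A)) := by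
        unfold TT ind
        simp
      rw [this]; rfl
    · refine Finset.sum_congr rfl fun b _ => ?_
      have : I.TT F s (.inl (I.iv a)) (I.iy (a, b)) =
          (F.s (.inl (I.iv a)) * F.s (.inl (I.iw b))) ⊗ₜ[ℂ] (1 : A) +
            (1 : A) ⊗ₜ[ℂ] (F.s (.inl (I.iw b)) * F.s (.inl (I.iv a))) := by
        unfold TT ind
        simp
      rw [this, sharp_add, map_add]; rfl
  · intro a' _ ha
    refine Finset.sum_eq_zero fun b _ => ?_
    have : I.TT F s (.inl (I.iv a)) (I.iy (a', b)) = 0 := by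
      unfold TT ind
      simp [ha]
    rw [this, sharp_zero, map_zero]
  · simp
  · intro b _
    have : I.TT F s (.inl (I.iv a)) (I.iw b) = 0 := by
      unfold TT ind
      simp
    rw [this, sharp_zero, map_zero]
  · intro a' _ ha
    have : I.TT F s (.inl (I.iv a)) (I.iv a') = 0 := by
      unfold TT ind
      simp [ha]
    rw [this, sharp_zero, map_zero]
  · simp

lemma Good.w {s : ℝ} {y : A} {U : Fin n → A ⊗[ℂ] A} (h : I.Good F s y U) (b : Fin D)
    (α β : List (Fin n ⊕ Fin n)) :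
    F.cf (α ++ .inl (I.iw b) :: β) y = F.psi 1 1 α β (U (I.iw b)) +
      ∑ a, F.psi (F.s (.inl (I.iv a))) (F.s (.inl (I.iv a))) α β (U (I.iy (a, b))) := by
  rw [h.2, I.sum_eq, Fintype.sum_prod_type_right, Finset.sum_eq_zero (s := Finset.univ)
    (f := fun a => F.phi α β (sharp (I.TT F s (.inl (I.iw b)) (I.iv a)) (U (I.iv a)))), zero_add,
    Finset.sum_eq_single b, Finset.sum_eq_single b]
  · congr 1
    · have : I.TT F s (.inl (I.iw b)) (I.iw b) = ((1 : A) ⊗ₜ[ℂ] (1 : A)) := by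
        unfold TT ind
        simp
      rw [this]; rfl
    · refine Finset.sum_congr rfl fun a _ => ?_
      have : I.TT F s (.inl (I.iw b)) (I.iy (a, b)) =
          F.s (.inl (I.iv a)) ⊗ₜ[ℂ] F.s (.inl (I.iv a)) := by
        unfold TT ind
        simp
      rw [this]; rfl
  · intro b' _ hb
    refine Finset.sum_eq_zero fun a _ => ?_
    have : I.TT F s (.inl (I.iw b)) (I.iy (a, b')) = 0 := by
      unfold TT ind
      simp [hb]
    rw [this, sharp_zero, map_zero]
  · simp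
  · intro b' _ hb
    have : I.TT F s (.inl (I.iw b)) (I.iw b') = 0 := by
      unfold TT ind
      simp [hb]
    rw [this, sharp_zero, map_zero]
  · simp
  · intro a _
    have : I.TT F s (.inl (I.iw b)) (I.iv a) = 0 := by
      unfold TT ind
      simp
    rw [this, sharp_zero, map_zero]

end Idx

end Crest.Agent.R089
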