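import Mathlib

/-! Gaussian expectation of polynomials and the Stein identity. -/

set_option autoImplicit false

namespace Crest.Agent.R089

open MeasureTheory ProbabilityTheory MvPolynomial
open scoped NNReal ENNReal

/-- The derivatives of the moment generating function of a centred Gaussian. -/
noncomputable def mom_F (v : ℝ≥0) (k : ℕ) (t : ℝ) : ℝ :=
  iteratedDeriv k (mgf id (gaussianReal 0 v)) t

lemma mom_F_hasDerivAt (v : ℝ≥0) (k : ℕ) (t : ℝ) :
    HasDerivAt (mom_F v k) (mom_F v (k + 1) t) t := by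
  have ht : t ∈ interior (integrableExpSet id (gaussianReal 0 v)) := by simp
  have h := hasDerivAt_iteratedDeriv_mgf ht k
  unfold mom_F
  rw [iteratedDeriv_mgf ht (k + 1)]
  exact h

lemma mom_F_one (v : ℝ≥0) (t : ℝ) : mom_F v 1 t = v * t * mom_F v 0 t := by
  have h := mom_F_hasDerivAt v 0 t
  have h0 : mom_F v 0 = fun t => Real.exp (v * t ^ 2 / 2) := by
    funext t
    simp [mom_F, mgf_id_gaussianReal]
  have h1 : HasDerivAt (fun t : ℝ => Real.exp (v * t ^ 2 / 2))
      (Real.exp (v * t ^ 2 / 2) * (v * (2 * t) / 2)) t := by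
    have : HasDerivAt (fun t : ℝ => (v : ℝ) * t ^ 2 / 2) (v * (2 * t) / 2) t := by
      have := ((hasDerivAt_pow 2 t).const_mul (v : ℝ)).div_const 2
      simpa using this
    exact this.exp
  rw [h0] at h
  have := h.unique h1
  rw [this, h0]
  ring

lemma mom_F_rec (v : ℝ≥0) (k : ℕ) :
    ∀ t : ℝ, mom_F v (k + 1) t = v * t * mom_F v k t + v * k * mom_F v (k - 1) t := by
  induction k with
  | zero => intro t; simp [mom_F_one]
  | succ k ih =>
    intro t
    have h1 := mom_F_hasDerivAt v (k + 1) t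
    have hf : mom_F v (k + 1) = fun t => v * t * mom_F v k t + v * k * mom_F v (k - 1) t :=
      funext ih
    have h2 : HasDerivAt (fun t => v * t * mom_F v k t + v * k * mom_F v (k - 1) t)
        ((v * 1) * mom_F v k t + v * t * mom_F v (k + 1) t + v * k * mom_F v (k - 1 + 1) t) t :=
      (((hasDerivAt_id t).const_mul (v : ℝ)).mul (mom_F_hasDerivAt v k t)).add
        ((mom_F_hasDerivAt v (k - 1) t).const_mul _)
    rw [hf] at h1
    have h3 := h1.unique h2
    rw [h3]
    rcases k with _ | k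
    · simp; ring
    · simp only [Nat.add_sub_cancel]; push_cast; ring

/-- The complex moments of a centred Gaussian. -/
noncomputable def mom_M (v : ℝ≥0) (k : ℕ) : ℂ := ∫ x, (x : ℂ) ^ k ∂(gaussianReal 0 v)

lemma mom_M_eq (v : ℝ≥0) (k : ℕ) : mom_M v k = (mom_F v k 0 : ℝ) := by
  have ht : (0 : ℝ) ∈ interior (integrableExpSet id (gaussianReal 0 v)) := by simp
  unfold mom_M mom_F
  rw [iteratedDeriv_mgf_zero ht k, ← integral_complex_ofReal]
  simp

lemma mom_M_rec (v : ℝ≥0) (k : ℕ) : mom_M v (k + 1) = (v : ℝ) * k * mom_M v (k - 1) := by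
  rw [mom_M_eq, mom_M_eq, mom_F_rec]
  simp

lemma mom_integrable_pow (v : ℝ≥0) (k : ℕ) :
    Integrable (fun x : ℝ => (x : ℂ) ^ k) (gaussianReal 0 v) := by
  have ht : (0 : ℝ) ∈ interior (integrableExpSet id (gaussianReal 0 v)) := by simp
  have h := integrable_pow_of_mem_interior_integrableExpSet ht k
  have h2 := h.ofReal (𝕜 := ℂ)
  simpa using h2

variable {κ : Type*} [Fintype κ]

/-- The product Gaussian measure. -/
noncomputable abbrev mom_mu (κ : Type*) [Fintype κ] (v : ℝ≥0) : Measure (κ → ℝ) :=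
  Measure.pi fun _ : κ => gaussianReal 0 v

/-- Evaluation of a complex polynomial at a real point. -/
noncomputable def mom_ev (a : κ → ℝ) : MvPolynomial κ ℂ →+* ℂ := eval fun k => (a k : ℂ)

lemma mom_ev_monomial (a : κ → ℝ) (s : κ →₀ ℕ) (c : ℂ) :
    mom_ev a (monomial s c) = c * ∏ k, (a k : ℂ) ^ s k := by
  unfold mom_ev
  rw [eval_monomial, Finsupp.prod_fintype _ _ (by simp)]

lemma mom_integrable (v : ℝ≥0) (p : MvPolynomial κ ℂ) :
    Integrable (fun a => mom_ev a p) (mom_mu κ v) := by
  induction p using MvPolynomial.induction_on' with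
  | monomial s c =>
    simp_rw [mom_ev_monomial]
    exact (Integrable.fintype_prod (f := fun k (x : ℝ) => (x : ℂ) ^ s k)
      (fun k => mom_integrable_pow v (s k))).const_mul c
  | add p q hp hq =>
    simp_rw [map_add]
    exact hp.add hq

/-- Gaussian expectation of a polynomial. -/
noncomputable def mom_E (v : ℝ≥0) : MvPolynomial κ ℂ →ₗ[ℂ] ℂ where
  toFun p := ∫ a, mom_ev a p ∂(mom_mu κ v)
  map_add' p q := by
    simp_rw [map_add]
    exact integral_add (mom_integrable v p) (mom_integrable v q)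
  map_smul' c p := by
    have : ∀ a : κ → ℝ, mom_ev a (c • p) = c * mom_ev a p := by
      intro a
      simp [mom_ev, smul_eval]
    simp_rw [this]
    rw [integral_const_mul]
    simp

lemma mom_E_apply (v : ℝ≥0) (p : MvPolynomial κ ℂ) :
    mom_E v p = ∫ a, mom_ev a p ∂(mom_mu κ v) := rfl

lemma mom_E_one (v : ℝ≥0) : mom_E (κ := κ) v 1 = 1 := by
  simp [mom_E_apply]

lemma mom_E_monomial (v : ℝ≥0) (s : κ →₀ ℕ) (c : ℂ) :
    mom_E v (monomial s c) = c * ∏ k, mom_M v (s k) := by
  rw [mom_E_apply]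
  simp_rw [mom_ev_monomial]
  rw [integral_const_mul, integral_fintype_prod_eq_prod (f := fun k (x : ℝ) => (x : ℂ) ^ s k)]
  rfl

/-- Gaussian integration by parts. -/
theorem mom_stein (v : ℝ≥0) (k : κ) (p : MvPolynomial κ ℂ) :
    mom_E v (X k * p) = ((v : ℝ) : ℂ) * mom_E v (pderiv k p) := by
  classical
  induction p using MvPolynomial.induction_on' with
  | monomial s c =>
    rw [pderiv_monomial, X, monomial_mul, mom_E_monomial, mom_E_monomial,
      ← Finset.mul_prod_erase _ _ (Finset.mem_univ k),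
      ← Finset.mul_prod_erase _ _ (Finset.mem_univ k)]
    have h1 : ∏ j ∈ Finset.univ.erase k, mom_M v ((Finsupp.single k 1 + s : κ →₀ ℕ) j) =
        ∏ j ∈ Finset.univ.erase k, mom_M v (s j) := by
      refine Finset.prod_congr rfl fun j hj => ?_
      have : j ≠ k := Finset.ne_of_mem_erase hj
      simp [Finsupp.single_eq_of_ne this]
    have h2 : ∏ j ∈ Finset.univ.erase k, mom_M v ((s - Finsupp.single k 1 : κ →₀ ℕ) j) =
        ∏ j ∈ Finset.univ.erase k, mom_M v (s j) := by
      refine Finset.prod_congr rfl fun j hj => ?_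
      have : j ≠ k := Finset.ne_of_mem_erase hj
      simp [Finsupp.single_eq_of_ne this]
    rw [h1, h2]
    have h3 : (Finsupp.single k 1 + s : κ →₀ ℕ) k = s k + 1 := by simp [add_comm]
    have h4 : (s - Finsupp.single k 1 : κ →₀ ℕ) k = s k - 1 := by simp
    rw [h3, h4, mom_M_rec]
    ring
  | add p q hp hq =>
    rw [mul_add, map_add, hp, hq, map_add, map_add]
    ring

end Crest.Agent.R089
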