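import Crest.Agent.R089.MomGauss

/-! Loop equations for the polynomial GUE model. -/

set_option autoImplicit false

namespace Crest.Agent.R089

open MeasureTheory ProbabilityTheory MvPolynomial
open scoped NNReal ENNReal

variable {n d : ℕ}

/-- index type of the coordinates -/
abbrev mom_K (n d : ℕ) : Type := Fin n × (Fin d × Fin d)

/-- first coordinate position -/
def mom_p1 (i j : Fin d) : Fin d × Fin d := if i ≤ j then (i, j) else (j, i)

/-- second coordinate position -/
def mom_p2 (i j : Fin d) : Fin d × Fin d := if i ≤ j then (j, i) else (i, j)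

/-- first coefficient -/
noncomputable def mom_al (i j : Fin d) : ℂ := if i = j then 1 else ((Real.sqrt 2 : ℝ) : ℂ)⁻¹

/-- second coefficient -/
noncomputable def mom_be (i j : Fin d) : ℂ :=
  if i = j then 0 else if i < j then Complex.I * ((Real.sqrt 2 : ℝ) : ℂ)⁻¹
    else -Complex.I * ((Real.sqrt 2 : ℝ) : ℂ)⁻¹

/-- The generic Hermitian matrix. -/
noncomputable def mom_G (l : Fin n) : Matrix (Fin d) (Fin d) (MvPolynomial (mom_K n d) ℂ) :=
  fun i j => mom_al i j • X (l, mom_p1 i j) + mom_be i j • X (l, mom_p2 i j)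

/-- The derivation dual to the entry `(i, j)` of the `l`-th matrix. -/
noncomputable def mom_D (l : Fin n) (i j : Fin d) :
    Derivation ℂ (MvPolynomial (mom_K n d) ℂ) (MvPolynomial (mom_K n d) ℂ) :=
  mom_al i j • pderiv (l, mom_p1 i j) + mom_be i j • pderiv (l, mom_p2 i j)

lemma mom_stein_G (v : ℝ≥0) (l : Fin n) (i j : Fin d) (q : MvPolynomial (mom_K n d) ℂ) :
    mom_E v (mom_G l i j * q) = ((v : ℝ) : ℂ) * mom_E v (mom_D l i j q) := by
  simp only [mom_G, mom_D, add_mul, smul_mul_assoc, map_add, map_smul, mom_stein,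
    Derivation.add_apply, Derivation.smul_apply, smul_eq_mul]
  ring

lemma mom_sq : ((Real.sqrt 2 : ℝ) : ℂ)⁻¹ * ((Real.sqrt 2 : ℝ) : ℂ)⁻¹ = 1 / 2 := by
  rw [← mul_inv, ← Complex.ofReal_mul, Real.mul_self_sqrt (by norm_num)]
  norm_num

lemma mom_coef (i j a b : Fin d) :
    mom_al a b * (mom_al i j * (if mom_p1 a b = mom_p1 i j then 1 else 0) +
        mom_be i j * (if mom_p1 a b = mom_p2 i j then 1 else 0)) +
      mom_be a b * (mom_al i j * (if mom_p2 a b = mom_p1 i j then 1 else 0) +
        mom_be i j * (if mom_p2 a b = mom_p2 i j then 1 else 0)) =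
      if j = a ∧ i = b then 1 else 0 := by
  have hs := mom_sq
  have hI : Complex.I * Complex.I = -1 := Complex.I_mul_I
  have e1 : ∀ x y : Fin d, x < y → mom_p1 x y = (x, y) ∧ mom_p2 x y = (y, x) ∧
      mom_al x y = ((Real.sqrt 2 : ℝ) : ℂ)⁻¹ ∧
      mom_be x y = Complex.I * ((Real.sqrt 2 : ℝ) : ℂ)⁻¹ := by
    intro x y h
    simp [mom_p1, mom_p2, mom_al, mom_be, h, h.le, h.ne]
  have e2 : ∀ x : Fin d, mom_p1 x x = (x, x) ∧ mom_p2 x x = (x, x) ∧
      mom_al x x = 1 ∧ mom_be x x = 0 := by
    intro x
    simp [mom_p1, mom_p2, mom_al, mom_be]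
  have e3 : ∀ x y : Fin d, y < x → mom_p1 x y = (y, x) ∧ mom_p2 x y = (x, y) ∧
      mom_al x y = ((Real.sqrt 2 : ℝ) : ℂ)⁻¹ ∧
      mom_be x y = -Complex.I * ((Real.sqrt 2 : ℝ) : ℂ)⁻¹ := by
    intro x y h
    simp [mom_p1, mom_p2, mom_al, mom_be, h.ne', not_le.mpr h, not_lt.mpr h.le]
  generalize ((Real.sqrt 2 : ℝ) : ℂ)⁻¹ = s at *
  have e : ∀ x y : Fin d,
      (x < y ∧ mom_p1 x y = (x, y) ∧ mom_p2 x y = (y, x) ∧ mom_al x y = s ∧
        mom_be x y = Complex.I * s) ∨
      (x = y ∧ mom_p1 x y = (x, y) ∧ mom_p2 x y = (x, y) ∧ mom_al x y = 1 ∧ mom_be x y = 0) ∨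
      (y < x ∧ mom_p1 x y = (y, x) ∧ mom_p2 x y = (x, y) ∧ mom_al x y = s ∧
        mom_be x y = -Complex.I * s) := by
    intro x y
    rcases lt_trichotomy x y with h | h | h
    · exact Or.inl ⟨h, e1 x y h⟩
    · subst h; exact Or.inr (Or.inl ⟨rfl, e2 x⟩)
    · exact Or.inr (Or.inr ⟨h, e3 x y h⟩)
  rcases e i j with ⟨hij, h1, h2, h3, h4⟩ | ⟨hij, h1, h2, h3, h4⟩ | ⟨hij, h1, h2, h3, h4⟩ <;>
    rcases e a b with ⟨hab, g1, g2, g3, g4⟩ | ⟨hab, g1, g2, g3, g4⟩ | ⟨hab, g1, g2, g3, g4⟩
  all_goals
    rw [h1, h2, h3, h4, g1, g2, g3, g4]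
    clear h1 h2 h3 h4 g1 g2 g3 g4 e1 e2 e3 e
    simp only [Prod.mk.injEq, Fin.ext_iff, Fin.lt_def] at *
    split_ifs <;>
      first
        | (exfalso; omega)
        | ring1
        | (linear_combination 2 * hs - (s * s) * hI)
        | (linear_combination (s * s) * hI)

lemma mom_D_G (l l' : Fin n) (i j a b : Fin d) :
    mom_D l i j (mom_G l' a b) = if l' = l then (if j = a ∧ i = b then 1 else 0) else 0 := by
  have h := mom_coef i j a b
  simp only [mom_G, mom_D, map_add, Derivation.map_smul, Derivation.add_apply,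
    Derivation.smul_apply, pderiv_X, Pi.single_apply, Prod.mk.injEq]
  by_cases hl : l' = l
  · simp only [hl, true_and, if_true]
    have h2 := congrArg (fun z : ℂ => z • (1 : MvPolynomial (mom_K n d) ℂ)) h
    simp only [add_smul, mul_smul, ite_smul, one_smul, zero_smul] at h2
    rw [← h2]
  · simp [hl]

/-- A word in the generic matrices. -/
noncomputable def mom_W (w : List (Fin n)) :
    Matrix (Fin d) (Fin d) (MvPolynomial (mom_K n d) ℂ) := (w.map mom_G).prod

lemma mom_W_nil : (mom_W [] : Matrix (Fin d) (Fin d) (MvPolynomial (mom_K n d) ℂ)) = 1 := rfl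

lemma mom_W_cons (l : Fin n) (w : List (Fin n)) :
    (mom_W (l :: w) : Matrix (Fin d) (Fin d) (MvPolynomial (mom_K n d) ℂ)) = mom_G l * mom_W w := by
  simp [mom_W]

lemma mom_W_append (u w : List (Fin n)) :
    (mom_W (u ++ w) : Matrix (Fin d) (Fin d) (MvPolynomial (mom_K n d) ℂ)) =
      mom_W u * mom_W w := by
  simp [mom_W]

lemma mom_D_W (l : Fin n) (i j : Fin d) (w : List (Fin n)) (a b : Fin d) :
    mom_D l i j (mom_W w a b) = ∑ k ∈ Finset.range w.length,
      if w[k]? = some l then mom_W (w.take k) a j * mom_W (w.drop (k + 1)) i b else 0 := by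
  induction w generalizing a with
  | nil =>
    rw [mom_W_nil, Matrix.one_apply]
    split_ifs <;> simp
  | cons x w ih =>
    rw [mom_W_cons, Matrix.mul_apply, map_sum, List.length_cons, Finset.sum_range_succ']
    simp only [Derivation.leibniz, smul_eq_mul, ih, mom_D_G, Finset.sum_add_distrib]
    congr 1
    · simp only [Finset.mul_sum]
      rw [Finset.sum_comm]
      refine Finset.sum_congr rfl fun k _ => ?_
      simp only [List.getElem?_cons_succ, List.take_succ_cons, List.drop_succ_cons, mom_W_cons]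
      split_ifs
      · rw [Matrix.mul_apply, Finset.sum_mul]
        refine Finset.sum_congr rfl fun c _ => ?_
        ring
      · simp
    · simp only [List.getElem?_cons_zero, Option.some.injEq, List.take_zero, mom_W_nil,
        zero_add, List.drop_succ_cons, List.drop_zero, Matrix.one_apply]
      by_cases hx : x = l
      · by_cases ha : a = j
        · subst ha
          simp [hx]
        · have : ¬ j = a := fun h => ha h.symm
          simp [hx, ha, this]
      · simp [hx]

/-- Trace of a word. -/
noncomputable def mom_T (d : ℕ) (w : List (Fin n)) : MvPolynomial (mom_K n d) ℂ :=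
  (mom_W w : Matrix (Fin d) (Fin d) _).trace

/-- Product of traces. -/
noncomputable def mom_P (d : ℕ) (ws : List (List (Fin n))) : MvPolynomial (mom_K n d) ℂ :=
  (ws.map (mom_T d)).prod

lemma mom_P_nil : mom_P (n := n) d [] = 1 := rfl

lemma mom_P_cons (u : List (Fin n)) (us : List (List (Fin n))) :
    mom_P d (u :: us) = mom_T d u * mom_P d us := by simp [mom_P]

lemma mom_split (l : Fin n) (w : List (Fin n)) :
    ∑ i : Fin d, ∑ j : Fin d, mom_D l i j (mom_W w j i) = ∑ k ∈ Finset.range w.length,
      if w[k]? = some l then mom_T d (w.take k) * mom_T d (w.drop (k + 1)) else 0 := by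
  simp only [mom_D_W]
  rw [Finset.sum_comm]
  simp_rw [Finset.sum_comm (s := (Finset.univ : Finset (Fin d))) (t := Finset.range w.length)]
  refine Finset.sum_congr rfl fun k _ => ?_
  split_ifs
  · simp only [mom_T, Matrix.trace, Matrix.diag, Finset.sum_mul_sum]
  · simp

lemma mom_merge_one (l : Fin n) (w u : List (Fin n)) :
    ∑ i : Fin d, ∑ j : Fin d, mom_W w j i * mom_D l i j (mom_T d u) =
      ∑ k ∈ Finset.range u.length,
        if u[k]? = some l then mom_T d (w ++ (u.drop (k + 1) ++ u.take k)) else 0 := by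
  simp only [mom_T, Matrix.trace, Matrix.diag, map_sum, mom_D_W, Finset.mul_sum]
  simp_rw [Finset.sum_comm (s := (Finset.univ : Finset (Fin d))) (t := Finset.range u.length)]
  refine Finset.sum_congr rfl fun k _ => ?_
  split_ifs
  · rw [Finset.sum_comm]
    refine Finset.sum_congr rfl fun j _ => ?_
    rw [mom_W_append, mom_W_append, Matrix.mul_apply]
    refine Finset.sum_congr rfl fun i _ => ?_
    rw [Matrix.mul_apply, Finset.mul_sum]
    refine Finset.sum_congr rfl fun c _ => ?_
    ring
  · simp

/-- The terms in which the word `w` gets merged with one of the other traces. -/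
def mom_merge (l : Fin n) (w : List (Fin n)) : List (List (Fin n)) → List (List (List (Fin n)))
  | [] => []
  | u :: us =>
    (((List.range u.length).filter fun k => u[k]? = some l).map
      fun k => (w ++ (u.drop (k + 1) ++ u.take k)) :: us) ++ (mom_merge l w us).map (u :: ·)

/-- total length -/
def mom_len (ws : List (List (Fin n))) : ℕ := (ws.map List.length).sum

lemma mom_merge_spec (l : Fin n) (w : List (Fin n)) (ws : List (List (Fin n))) :
    ∀ ws' ∈ mom_merge l w ws, ws'.length = ws.length ∧ mom_len ws' + 1 = w.length + mom_len ws := by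
  induction ws with
  | nil => simp [mom_merge]
  | cons u us ih =>
    intro ws' h
    simp only [mom_merge, List.mem_append, List.mem_map, List.mem_filter, List.mem_range] at h
    rcases h with ⟨k, ⟨hk, -⟩, rfl⟩ | ⟨vs, hvs, rfl⟩
    · simp [mom_len]; omega
    · have := ih vs hvs
      simp [mom_len] at *; omega

lemma mom_sum_filter {M : Type*} [AddCommMonoid M] (N : ℕ) (p : ℕ → Prop) [DecidablePred p]
    (f : ℕ → M) :
    (((List.range N).filter fun k => p k).map f).sum =
      ∑ k ∈ Finset.range N, if p k then f k else 0 := by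
  induction N with
  | zero => simp
  | succ N ih =>
    rw [List.range_succ, List.filter_append, List.map_append, List.sum_append, ih,
      Finset.sum_range_succ]
    by_cases h : p N <;> simp [h]

lemma mom_merge_sum (l : Fin n) (w : List (Fin n)) (ws : List (List (Fin n))) :
    ∑ i : Fin d, ∑ j : Fin d, mom_W w j i * mom_D l i j (mom_P d ws) =
      ((mom_merge l w ws).map (mom_P d)).sum := by
  induction ws with
  | nil => simp [mom_P_nil, mom_merge]
  | cons u us ih =>
    rw [mom_merge, List.map_append, List.sum_append, List.map_map, List.map_map, mom_sum_filter]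
    have h1 : ((mom_merge l w us).map (mom_P d ∘ fun x => u :: x)).sum =
        mom_T d u * ((mom_merge l w us).map (mom_P d)).sum := by
      rw [← List.sum_map_mul_left]
      exact congrArg List.sum (List.map_congr_left fun x _ => mom_P_cons u x)
    rw [h1, ← ih]
    have h2 : (∑ k ∈ Finset.range u.length, if u[k]? = some l then
        (mom_P d ∘ fun k => (w ++ (u.drop (k + 1) ++ u.take k)) :: us) k else 0) =
        (∑ i : Fin d, ∑ j : Fin d, mom_W w j i * mom_D l i j (mom_T d u)) * mom_P d us := by
      rw [mom_merge_one, Finset.sum_mul]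
      refine Finset.sum_congr rfl fun k _ => ?_
      split_ifs
      · simp [mom_P_cons]
      · simp
    rw [h2]
    simp only [mom_P_cons, Derivation.leibniz, smul_eq_mul, Finset.sum_mul, Finset.mul_sum,
      ← Finset.sum_add_distrib]
    refine Finset.sum_congr rfl fun i _ => Finset.sum_congr rfl fun j _ => ?_
    ring

/-- The loop equation. -/
theorem mom_loop (v : ℝ≥0) (l : Fin n) (w : List (Fin n)) (ws : List (List (Fin n))) :
    mom_E v (mom_P d ((l :: w) :: ws)) = ((v : ℝ) : ℂ) *
      ((∑ k ∈ Finset.range w.length, if w[k]? = some l then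
        mom_E v (mom_P d (w.take k :: w.drop (k + 1) :: ws)) else 0) +
      ((mom_merge l w ws).map fun ws' => mom_E v (mom_P d ws')).sum) := by
  have h1 : mom_P d ((l :: w) :: ws) =
      ∑ i : Fin d, ∑ j : Fin d, mom_G l i j * (mom_W w j i * mom_P d ws) := by
    rw [mom_P_cons, mom_T, mom_W_cons, Matrix.trace, Finset.sum_mul]
    refine Finset.sum_congr rfl fun i _ => ?_
    rw [Matrix.diag_apply, Matrix.mul_apply, Finset.sum_mul]
    refine Finset.sum_congr rfl fun j _ => ?_
    ring
  have h2 : ∑ i : Fin d, ∑ j : Fin d, mom_D l i j (mom_W w j i * mom_P d ws) =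
      (∑ k ∈ Finset.range w.length, if w[k]? = some l then
        mom_P d (w.take k :: w.drop (k + 1) :: ws) else 0) +
      ((mom_merge l w ws).map (mom_P d)).sum := by
    rw [← mom_merge_sum]
    have h3 : (∑ k ∈ Finset.range w.length, if w[k]? = some l then
        mom_P d (w.take k :: w.drop (k + 1) :: ws) else 0) =
        (∑ i : Fin d, ∑ j : Fin d, mom_D l i j (mom_W w j i)) * mom_P d ws := by
      rw [mom_split, Finset.sum_mul]
      refine Finset.sum_congr rfl fun k _ => ?_
      split_ifs
      · simp [mom_P_cons, mul_assoc]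
      · simp
    rw [h3]
    simp only [Derivation.leibniz, smul_eq_mul, Finset.sum_mul, ← Finset.sum_add_distrib]
    refine Finset.sum_congr rfl fun i _ => Finset.sum_congr rfl fun j _ => ?_
    ring
  rw [h1]
  simp only [map_sum, mom_stein_G, ← Finset.mul_sum]
  congr 1
  have h4 := congrArg (mom_E v) h2
  simp only [map_sum, map_add, map_list_sum, List.map_map] at h4
  rw [h4]
  congr 1
  refine Finset.sum_congr rfl fun k _ => ?_
  split_ifs <;> simp

end Crest.Agent.R089
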