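import Crest.Agent.R089.Defs
import Crest.Agent.R089.MomLoop

set_option autoImplicit false

namespace Crest.Agent.R089

open Crest.OpAlg MeasureTheory ProbabilityTheory Filter Topology
open scoped NNReal ENNReal

/-- Normalised expected product of traces. -/
noncomputable def mom_t {n : ℕ} (d : ℕ) (ws : List (List (Fin n))) : ℂ :=
  ((d : ℂ)⁻¹) ^ ws.length * mom_E ((d : ℝ≥0)⁻¹) (mom_P d ws)

lemma mom_t_nil {n : ℕ} (d : ℕ) : mom_t (n := n) d [] = 1 := by
  simp [mom_t, mom_P_nil, mom_E_one]

lemma mom_t_nil_cons {n : ℕ} (d : ℕ) (hd : d ≠ 0) (ws : List (List (Fin n))) :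
    mom_t d ([] :: ws) = mom_t d ws := by
  have h : mom_P d ([] :: ws) = (d : ℂ) • mom_P d ws := by
    rw [mom_P_cons, mom_T, mom_W_nil, Matrix.trace_one, Fintype.card_fin,
      MvPolynomial.smul_eq_C_mul]
    simp
  have hd' : (d : ℂ) ≠ 0 := by exact_mod_cast hd
  rw [mom_t, mom_t, h, map_smul, List.length_cons, smul_eq_mul, pow_succ]
  field_simp

lemma mom_t_cons {n : ℕ} (d : ℕ) (l : Fin n) (w : List (Fin n)) (ws : List (List (Fin n))) :
    mom_t d ((l :: w) :: ws) =
      (∑ k ∈ Finset.range w.length, if w[k]? = some l then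
        mom_t d (w.take k :: w.drop (k + 1) :: ws) else 0) +
      ((d : ℂ)⁻¹) ^ 2 * ((mom_merge l w ws).map (mom_t d)).sum := by
  have hv : (((((d : ℝ≥0)⁻¹ : ℝ≥0) : ℝ)) : ℂ) = (d : ℂ)⁻¹ := by simp
  rw [mom_t, mom_loop, hv, ← mul_assoc, mul_add, Finset.mul_sum]
  congr 1
  · refine Finset.sum_congr rfl fun k _ => ?_
    split_ifs
    · simp only [mom_t, List.length_cons]
      ring
    · simp
  · rw [← List.sum_map_mul_left, ← List.sum_map_mul_left]
    refine congrArg List.sum (List.map_congr_left fun x hx => ?_)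
    rw [mom_t, (mom_merge_spec l w ws x hx).1, List.length_cons]
    ring

lemma mom_t_tendsto {n : ℕ} (m : List (Fin n) → ℂ) (h0 : m [] = 1)
    (hrec : ∀ (l : Fin n) (w : List (Fin n)), m (l :: w) = ∑ k ∈ Finset.range w.length,
      if w[k]? = some l then m (w.take k) * m (w.drop (k + 1)) else 0) (N : ℕ) :
    ∀ ws : List (List (Fin n)), mom_len ws = N →
      Tendsto (fun d : ℕ => mom_t d ws) atTop (𝓝 (ws.map m).prod) := by
  induction N using Nat.strong_induction_on with
  | _ N ihN =>
  intro ws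
  induction ws with
  | nil => intro _; simp [mom_t_nil]
  | cons u ws ih =>
    intro hN
    rcases u with _ | ⟨l, w⟩
    · have h1 := ih (by simpa [mom_len] using hN)
      simp only [List.map_cons, List.prod_cons, h0, one_mul]
      refine h1.congr' ?_
      filter_upwards [eventually_ne_atTop 0] with d hd
      exact (mom_t_nil_cons d hd ws).symm
    · simp only [mom_t_cons, List.map_cons, List.prod_cons, hrec, Finset.sum_mul]
      have hlen : w.length + 1 + mom_len ws = N := by simpa [mom_len] using hN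
      have hA : Tendsto (fun d : ℕ => ∑ k ∈ Finset.range w.length, if w[k]? = some l then
          mom_t d (w.take k :: w.drop (k + 1) :: ws) else 0) atTop
          (𝓝 (∑ k ∈ Finset.range w.length,
            (if w[k]? = some l then m (w.take k) * m (w.drop (k + 1)) else 0) *
              (ws.map m).prod)) := by
        refine tendsto_finsetSum _ fun k hk => ?_
        have hk' := Finset.mem_range.mp hk
        split_ifs
        · have := ihN (mom_len (w.take k :: w.drop (k + 1) :: ws))
            (by simp [mom_len] at *; omega) _ rfl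
          simpa [mul_assoc] using this
        · simp
      have hB : Tendsto (fun d : ℕ => ((mom_merge l w ws).map (mom_t d)).sum) atTop
          (𝓝 ((mom_merge l w ws).map fun x => (x.map m).prod).sum) := by
        refine tendsto_list_sum _ fun x hx => ?_
        exact ihN (mom_len x) (by have := (mom_merge_spec l w ws x hx).2; omega) x rfl
      have hC : Tendsto (fun d : ℕ => ((d : ℂ)⁻¹) ^ 2) atTop (𝓝 0) := by
        have := (tendsto_inv_atTop_nhds_zero_nat (𝕜 := ℂ)).pow 2
        simpa using this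
      have := hA.add (hC.mul hB)
      simpa using this

lemma mom_ev_G {n d : ℕ} (a : mom_K n d → ℝ) (l : Fin n) :
    (mom_ev a).mapMatrix (mom_G l) = matrixTuple (WithLp.toLp 2 a) l := by
  ext i j
  simp only [RingHom.mapMatrix_apply, Matrix.map_apply, mom_G, mom_ev, map_add,
    MvPolynomial.smul_eval, MvPolynomial.eval_X, matrixTuple, hermitianOfCoords, mom_al, mom_be,
    mom_p1, mom_p2]
  rcases lt_trichotomy i j with h | h | h
  · simp only [h, h.le, h.ne, if_true, if_false]
    ring
  · subst h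
    simp
  · simp only [h.ne', not_le.mpr h, not_lt.mpr h.le, if_false]
    ring

lemma mom_ev_T {n d : ℕ} (a : mom_K n d → ℝ) (w : List (Fin n)) :
    mom_ev a (mom_T d w) = (w.map (matrixTuple (WithLp.toLp 2 a))).prod.trace := by
  have h : (mom_ev a).mapMatrix (mom_W w) = (w.map (matrixTuple (WithLp.toLp 2 a))).prod := by
    rw [mom_W, map_list_prod, List.map_map]
    exact congrArg List.prod (List.map_congr_left fun x _ => mom_ev_G a x)
  rw [← h]
  simp [mom_T, Matrix.trace]

lemma mom_herm {n d : ℕ} (a : Coord n d) (l : Fin n) :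
    (matrixTuple a l).conjTranspose = matrixTuple a l := by
  ext i j
  simp only [Matrix.conjTranspose_apply, matrixTuple, hermitianOfCoords]
  rcases lt_trichotomy i j with h | h | h
  · simp [h, h.ne, h.ne', not_lt.mpr h.le, sub_eq_add_neg]
  · subst h
    simp
  · simp [h, h.ne, h.ne', not_lt.mpr h.le, sub_eq_add_neg]

lemma mom_conj_trace {n d : ℕ} (a : Coord n d) (w : List (Fin n)) :
    (starRingEnd ℂ) (w.map (matrixTuple a)).prod.trace =
      (w.reverse.map (matrixTuple a)).prod.trace := by
  have h : ((w.map (matrixTuple a)).prod).conjTranspose = (w.reverse.map (matrixTuple a)).prod := by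
    induction w with
    | nil => simp
    | cons x w ih => simp [Matrix.conjTranspose_mul, ih, mom_herm]
  rw [← h, Matrix.trace_conjTranspose]
  rfl

theorem gue_moments (n : ℕ) (m : List (Fin n) → ℂ) (h0 : m [] = 1)
    (hrec : ∀ (l : Fin n) (w : List (Fin n)), m (l :: w) = ∑ k ∈ Finset.range w.length,
      if w[k]? = some l then m (w.take k) * m (w.drop (k + 1)) else 0)
    (w : List (Fin n)) (ε : ℝ) (hε : 0 < ε) :
    Tendsto (fun d : ℕ => gue n d
      {a | ε ≤ ‖matrixMoment (matrixTuple a) (FreeMonoid.ofList w) - m w‖}) atTop (𝓝 0) := by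
  set Q : (d : ℕ) → MvPolynomial (mom_K n d) ℂ := fun d =>
    ((d : ℂ)⁻¹ • mom_T d w - m w • 1) *
      ((d : ℂ)⁻¹ • mom_T d w.reverse - (starRingEnd ℂ) (m w) • 1) with hQ
  have hEQ : ∀ d : ℕ, mom_E ((d : ℝ≥0)⁻¹) (Q d) = mom_t d [w, w.reverse] -
      (starRingEnd ℂ) (m w) * mom_t d [w] - m w * mom_t d [w.reverse] +
      m w * (starRingEnd ℂ) (m w) := by
    intro d
    have : Q d = ((d : ℂ)⁻¹ * (d : ℂ)⁻¹) • mom_P d [w, w.reverse] -
        ((starRingEnd ℂ) (m w) * (d : ℂ)⁻¹) • mom_P d [w] -
        (m w * (d : ℂ)⁻¹) • mom_P d [w.reverse] + (m w * (starRingEnd ℂ) (m w)) • 1 := by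
      simp only [hQ, mom_P_cons, mom_P_nil, MvPolynomial.smul_eq_C_mul, map_mul]
      ring
    rw [this]
    simp only [map_add, map_sub, map_smul, mom_E_one, smul_eq_mul, mom_t, List.length_cons,
      List.length_nil]
    ring
  have hlim : Tendsto (fun d : ℕ => mom_E ((d : ℝ≥0)⁻¹) (Q d)) atTop (𝓝 0) := by
    have h1 := mom_t_tendsto m h0 hrec _ [w, w.reverse] rfl
    have h2 := mom_t_tendsto m h0 hrec _ [w] rfl
    have h3 := mom_t_tendsto m h0 hrec _ [w.reverse] rfl
    have h4 := ((h1.sub (h2.const_mul ((starRingEnd ℂ) (m w)))).sub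
      (h3.const_mul (m w))).add_const (m w * (starRingEnd ℂ) (m w))
    simp_rw [hEQ]
    convert h4 using 2
    simp only [List.map_cons, List.map_nil, List.prod_cons, List.prod_nil]
    ring
  have hev : ∀ (d : ℕ) (a : mom_K n d → ℝ), mom_ev a (Q d) =
      ((‖matrixMoment (matrixTuple (WithLp.toLp 2 a)) (FreeMonoid.ofList w) - m w‖ ^ 2 : ℝ) : ℂ) := by
    intro d a
    have hm : matrixMoment (matrixTuple (WithLp.toLp 2 a)) (FreeMonoid.ofList w) =
        (d : ℂ)⁻¹ * (w.map (matrixTuple (WithLp.toLp 2 a))).prod.trace := by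
      rw [matrixMoment, wordEval, FreeMonoid.lift_ofList]
    have hs : ∀ (c : ℂ) (p : MvPolynomial (mom_K n d) ℂ), mom_ev a (c • p) = c * mom_ev a p := by
      intro c p
      simp [mom_ev, MvPolynomial.smul_eval]
    rw [Complex.ofReal_pow, ← Complex.mul_conj', hm]
    simp only [hQ, map_mul, map_sub, hs, mom_ev_T, map_one, mul_one, mom_conj_trace, map_inv₀,
      map_natCast]
  have hbound : ∀ d : ℕ, (gue n d).real
      {a | ε ≤ ‖matrixMoment (matrixTuple a) (FreeMonoid.ofList w) - m w‖} ≤
      (mom_E ((d : ℝ≥0)⁻¹) (Q d)).re / ε ^ 2 := by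
    intro d
    set f : (mom_K n d → ℝ) → ℝ := fun a =>
      ‖matrixMoment (matrixTuple (WithLp.toLp 2 a)) (FreeMonoid.ofList w) - m w‖ ^ 2 with hf
    have hint : Integrable f (mom_mu (mom_K n d) ((d : ℝ≥0)⁻¹)) := by
      have := (mom_integrable ((d : ℝ≥0)⁻¹) (Q d)).re
      simp_rw [hev] at this
      simpa only [RCLike.re_to_complex, Complex.ofReal_re] using this
    have hE : (mom_E ((d : ℝ≥0)⁻¹) (Q d)).re = ∫ a, f a ∂(mom_mu (mom_K n d) ((d : ℝ≥0)⁻¹)) := by
      rw [mom_E_apply]
      simp_rw [hev]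
      rw [integral_complex_ofReal, Complex.ofReal_re]
    have hM := mul_meas_ge_le_integral_of_nonneg (ae_of_all _ fun a => by positivity) hint (ε ^ 2)
    rw [hE, le_div_iff₀ (by positivity), mul_comm]
    refine le_trans (le_of_eq ?_) hM
    congr 1
    rw [measureReal_def, measureReal_def, gue, ← MeasurableEquiv.coe_toLp,
      MeasurableEquiv.map_apply]
    congr 2
    ext a
    simp only [Set.mem_preimage, Set.mem_ofPred_eq, hf, MeasurableEquiv.coe_toLp]
    exact (pow_le_pow_iff_left₀ hε.le (norm_nonneg _) two_ne_zero).symm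
  have hreal : Tendsto (fun d : ℕ => (gue n d).real
      {a | ε ≤ ‖matrixMoment (matrixTuple a) (FreeMonoid.ofList w) - m w‖}) atTop (𝓝 0) := by
    refine squeeze_zero (fun d => measureReal_nonneg) hbound ?_
    have := ((Complex.continuous_re.tendsto 0).comp hlim).div_const (ε ^ 2)
    simpa using this
  have := ENNReal.tendsto_ofReal hreal
  simpa [measureReal_def] using this

end Crest.Agent.R089
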